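import Crest.Agent.R189.Amen

/-!
# Row 261, package GRP (helper85): virtually abelian / solvable / indicable, just non VA groups
-/

set_option autoImplicit false

namespace Crest.Agent.X261.Grp

open Crest.Agent.R189
open scoped commutatorElement

variable {G : Type*} [Group G]

/-! ### finite index pairs -/

/-- `K'` is a subgroup of finite index of `K` -/
structure FI (K' K : Subgroup G) : Prop where
  le : K' ≤ K
  ne : K'.relIndex K ≠ 0

namespace FI

variable {K K' K'' L : Subgroup G}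

theorem refl (K : Subgroup G) : FI K K := ⟨le_rfl, by rw [Subgroup.relIndex_self]; exact one_ne_zero⟩

theorem trans (h : FI K'' K') (h' : FI K' K) : FI K'' K :=
  ⟨h.le.trans h'.le, Subgroup.relIndex_ne_zero_trans h.ne h'.ne⟩

theorem inf (h : FI K' K) (h' : FI K'' K) : FI (K' ⊓ K'') K :=
  ⟨inf_le_left.trans h.le, Subgroup.relIndex_inf_ne_zero h.ne h'.ne⟩

theorem of_le (h : FI K'' K) (h1 : K'' ≤ K') (h2 : K' ≤ K) : FI K' K :=
  ⟨h2, fun h0 => h.ne (Subgroup.relIndex_eq_zero_of_le_left h1 h0)⟩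

theorem of_le' (h : FI K'' K) (h1 : K'' ≤ K') (h2 : K' ≤ K) : FI K'' K' :=
  ⟨h1, fun h0 => h.ne (Subgroup.relIndex_eq_zero_of_le_right h2 h0)⟩

theorem inf_right (h : FI K' K) (hL : L ≤ K) : FI (K' ⊓ L) L :=
  ⟨inf_le_right, by
    rw [Subgroup.inf_relIndex_right]
    exact fun h0 => h.ne (Subgroup.relIndex_eq_zero_of_le_right hL h0)⟩

theorem inf_inf (h : FI K' K) (L : Subgroup G) : FI (K' ⊓ L) (K ⊓ L) := by
  have := h.inf_right (L := K ⊓ L) inf_le_left
  rwa [← inf_assoc, inf_eq_left.2 h.le] at this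

theorem top_iff : FI K ⊤ ↔ K.FiniteIndex :=
  ⟨fun h => ⟨by simpa using h.ne⟩, fun h => ⟨le_top, by simpa using h.1⟩⟩

theorem of_finiteIndex (K : Subgroup G) [h : K.FiniteIndex] : FI K ⊤ := top_iff.2 h

theorem finiteIndex (h : FI K' K) [hK : K.FiniteIndex] : K'.FiniteIndex :=
  top_iff.1 (h.trans (top_iff.2 hK))

theorem subgroupOf (h : FI K' K) : (K'.subgroupOf K).FiniteIndex := ⟨h.ne⟩

theorem fg (h : FI K' K) (hK : K.FG) : K'.FG := by
  have : Group.FG K := (Group.fg_iff_subgroup_fg K).2 hK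
  have := h.subgroupOf
  have h1 : Group.FG (K'.subgroupOf K) := inferInstance
  have h2 : Group.FG K' :=
    Group.fg_of_surjective (f := (Subgroup.subgroupOfEquivOfLe h.le).toMonoidHom)
      (Subgroup.subgroupOfEquivOfLe h.le).surjective
  exact (Group.fg_iff_subgroup_fg K').1 h2

theorem comap {H : Type*} [Group H] (h : FI K' K) (f : H →* G) : FI (K'.comap f) (K.comap f) :=
  ⟨Subgroup.comap_mono h.le, by
    rw [Subgroup.relIndex_comap]
    exact fun h0 => h.ne (Subgroup.relIndex_eq_zero_of_le_right (Subgroup.map_comap_le f K) h0)⟩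

theorem map {H : Type*} [Group H] (h : FI K' K) (f : G →* H) : FI (K'.map f) (K.map f) :=
  ⟨Subgroup.map_mono h.le, by
    rw [← Subgroup.relIndex_comap]
    exact fun h0 => h.ne (Subgroup.relIndex_eq_zero_of_le_left (Subgroup.le_comap_map f K') h0)⟩

theorem finite (h : FI K' K) [Finite K'] : Finite K := by
  have := h.subgroupOf
  have : Finite (K'.subgroupOf K) :=
    Finite.of_equiv _ (Subgroup.subgroupOfEquivOfLe h.le).symm.toEquiv
  exact (Subgroup.finite_iff_finite_and_finiteIndex (K'.subgroupOf K)).2 ⟨this, h.subgroupOf⟩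

theorem bot_iff : FI ⊥ K ↔ Finite K :=
  ⟨fun h => h.finite, fun _ => ⟨bot_le, by
    rw [Subgroup.relIndex_bot_left]; exact Nat.card_pos.ne'⟩⟩

/-- finitely many left cosets cover -/
theorem exists_cover (h : FI K' K) :
    ∃ T : Finset G, (∀ t ∈ T, t ∈ K) ∧ ∀ x ∈ K, ∃ t ∈ T, t⁻¹ * x ∈ K' := by
  classical
  have := h.subgroupOf
  have := Fintype.ofFinite (K ⧸ K'.subgroupOf K)
  refine ⟨Finset.univ.image fun q : K ⧸ K'.subgroupOf K => (q.out : G), ?_, fun x hx => ?_⟩
  · intro t ht
    obtain ⟨q, -, rfl⟩ := Finset.mem_image.1 ht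
    exact q.out.2
  · refine ⟨_, Finset.mem_image_of_mem _ (Finset.mem_univ ((⟨x, hx⟩ : K) : K ⧸ K'.subgroupOf K)),
      ?_⟩
    have h1 := QuotientGroup.eq.1 (QuotientGroup.out_eq' ((⟨x, hx⟩ : K) : K ⧸ K'.subgroupOf K))
    exact h1

theorem of_cover (hle : K' ≤ K) (T : Set G) (hT : T.Finite)
    (h : ∀ x ∈ K, ∃ t ∈ T, t⁻¹ * x ∈ K') : FI K' K := by
  classical
  refine ⟨hle, ?_⟩
  have : Finite T := hT
  have : Finite (K ⧸ K'.subgroupOf K) := by
    refine Finite.of_surjective (fun t : T => if ht : (t : G) ∈ K then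
      ((⟨t, ht⟩ : K) : K ⧸ K'.subgroupOf K) else ((1 : K) : K ⧸ K'.subgroupOf K)) ?_
    intro q
    induction q using QuotientGroup.induction_on with
    | H x =>
      obtain ⟨t, ht, h1⟩ := h x x.2
      have h2 : t ∈ K := by
        have := K.mul_mem x.2 (K.inv_mem (hle h1))
        simpa using this
      refine ⟨⟨t, ht⟩, ?_⟩
      simp only [h2, dif_pos]
      exact QuotientGroup.eq.2 h1
  exact Subgroup.index_ne_zero_of_finite

/-- the kernel-type criterion: a map to a finite set separating cosets -/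
theorem of_finite_map {β : Type*} (hle : K' ≤ K) (f : G → β) (hf : (f '' K).Finite)
    (h : ∀ x ∈ K, ∀ y ∈ K, f x = f y → x⁻¹ * y ∈ K') : FI K' K := by
  classical
  choose! s hs using fun b (hb : b ∈ f '' K) => hb
  refine of_cover hle (s '' (f '' K)) (hf.image _) fun x hx => ?_
  have h1 := hs (f x) ⟨x, hx, rfl⟩
  exact ⟨_, ⟨f x, ⟨x, hx, rfl⟩, rfl⟩, h _ h1.1 _ hx h1.2⟩

theorem pow_mem (h : FI K' K) {x : G} (hx : x ∈ K) : ∃ n : ℕ, 0 < n ∧ x ^ n ∈ K' := by
  obtain ⟨n, hn, -, h1⟩ := Subgroup.exists_pow_mem_of_relIndex_ne_zero h.ne hx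
  exact ⟨n, hn, h1.1⟩

/-- a finite index subgroup of a finitely generated normal subgroup contains a normal one -/
theorem exists_normal (h : FI K' K) (hK : K.FG) [hn : K.Normal] :
    ∃ C : Subgroup G, C.Normal ∧ C ≤ K' ∧ FI C K := by
  classical
  have hfg : Group.FG K := (Group.fg_iff_subgroup_fg K).2 hK
  set P := K'.subgroupOf K
  have := h.subgroupOf
  obtain ⟨S, hS⟩ := (Group.fg_def (G := K)).1 inferInstance
  have hι : Finite (K →* Equiv.Perm (K ⧸ P)) := by
    refine Finite.of_injective (fun f => fun s : S => f (s : K)) ?_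
    intro f g hfg
    apply MonoidHom.eq_of_eqOn_dense (s := (S : Set K)) hS
    intro s hs
    exact congrFun hfg ⟨s, hs⟩
  set C : Subgroup K := ⨅ f : K →* Equiv.Perm (K ⧸ P), f.ker with hC
  have h1 : C.Characteristic := by
    rw [Subgroup.characteristic_iff_le_comap]
    intro φ x hx
    rw [Subgroup.mem_comap, Subgroup.mem_iInf]
    intro f
    exact (Subgroup.mem_iInf.1 hx) (f.comp φ.toMonoidHom)
  have h2 : C.index ≠ 0 := by
    apply Subgroup.index_iInf_ne_zero
    intro f
    rw [Subgroup.index_ker]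
    exact Nat.card_pos.ne'
  have h3 : C ≤ P := by
    refine (iInf_le _ (MulAction.toPermHom K (K ⧸ P))).trans ?_
    rw [← Subgroup.normalCore_eq_ker]
    exact Subgroup.normalCore_le P
  refine ⟨C.map K.subtype, inferInstance, ?_, Subgroup.map_subtype_le _, ?_⟩
  · rintro _ ⟨x, hx, rfl⟩
    exact h3 hx
  · rw [Subgroup.relIndex, Subgroup.subgroupOf,
      Subgroup.comap_map_eq_self_of_injective K.subtype_injective C]
    exact h2

/-- the core of a finite index subgroup inside `K` -/
theorem exists_core (h : FI K' K) :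
    ∃ C : Subgroup G, C ≤ K' ∧ FI C K ∧ ∀ g ∈ K, ∀ x ∈ C, g * x * g⁻¹ ∈ C := by
  have := h.subgroupOf
  refine ⟨(K'.subgroupOf K).normalCore.map K.subtype, ?_, ⟨Subgroup.map_subtype_le _, ?_⟩, ?_⟩
  · rintro _ ⟨x, hx, rfl⟩
    exact Subgroup.normalCore_le (K'.subgroupOf K) hx
  · rw [Subgroup.relIndex, Subgroup.subgroupOf,
      Subgroup.comap_map_eq_self_of_injective K.subtype_injective]
    exact Subgroup.FiniteIndex.index_ne_zero
  · rintro g hg _ ⟨x, hx, rfl⟩
    exact ⟨_, (Subgroup.normalCore_normal _).conj_mem x hx ⟨g, hg⟩, rfl⟩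

end FI

/-! ### virtually abelian -/

/-- virtually abelian (the conclusion of row 261) -/
def VA (G : Type*) [Group G] : Prop :=
  ∃ H : Subgroup G, H.FiniteIndex ∧ ∀ a ∈ H, ∀ b ∈ H, a * b = b * a

/-- virtually abelian modulo `N` -/
def VAm (N : Subgroup G) : Prop :=
  ∃ H : Subgroup G, H.FiniteIndex ∧ ∀ a ∈ H, ∀ b ∈ H, ⁅a, b⁆ ∈ N

theorem vam_bot : VAm (⊥ : Subgroup G) ↔ VA G := by
  simp only [VAm, VA, Subgroup.mem_bot, commutatorElement_eq_one_iff_mul_comm]

theorem VAm.mono {N M : Subgroup G} (h : VAm N) (hle : N ≤ M) : VAm M := by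
  obtain ⟨H, h1, h2⟩ := h
  exact ⟨H, h1, fun a ha b hb => hle (h2 a ha b hb)⟩

theorem VAm.inf {N M : Subgroup G} (h : VAm N) (h' : VAm M) : VAm (N ⊓ M) := by
  obtain ⟨H, h1, h2⟩ := h
  obtain ⟨H', h1', h2'⟩ := h'
  exact ⟨H ⊓ H', inferInstance, fun a ha b hb => ⟨h2 a ha.1 b hb.1, h2' a ha.2 b hb.2⟩⟩

theorem VAm.comap {H : Type*} [Group H] {N : Subgroup G} (h : VAm N) (f : H →* G) :
    VAm (N.comap f) := by
  obtain ⟨K, h1, h2⟩ := h
  refine ⟨K.comap f, ?_, fun a ha b hb => ?_⟩
  · have := (FI.of_finiteIndex K).comap f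
    rwa [Subgroup.comap_top, FI.top_iff] at this
  · rw [Subgroup.mem_comap, map_commutatorElement]
    exact h2 _ ha _ hb

theorem VAm.map {H : Type*} [Group H] {N : Subgroup G} (h : VAm N) (f : G →* H)
    (hf : Function.Surjective f) : VAm (N.map f) := by
  obtain ⟨K, h1, h2⟩ := h
  refine ⟨K.map f, ?_, ?_⟩
  · have := (FI.of_finiteIndex K).map f
    rwa [Subgroup.map_top_of_surjective f hf, FI.top_iff] at this
  · rintro _ ⟨a, ha, rfl⟩ _ ⟨b, hb, rfl⟩
    exact ⟨_, h2 a ha b hb, map_commutatorElement f a b⟩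

theorem vam_comap_iff {H : Type*} [Group H] {N : Subgroup G} (f : H →* G)
    (hf : Function.Surjective f) : VAm (N.comap f) ↔ VAm N :=
  ⟨fun h => by simpa [Subgroup.map_comap_eq_self_of_surjective hf] using h.map f hf,
    fun h => h.comap f⟩

theorem va_iff_ker {H : Type*} [Group H] (f : G →* H) (hf : Function.Surjective f) :
    VA H ↔ VAm f.ker := by
  rw [← vam_bot, ← vam_comap_iff f hf, MonoidHom.comap_bot]

theorem va_quot_iff (N : Subgroup G) [N.Normal] : VA (G ⧸ N) ↔ VAm N := by
  rw [va_iff_ker (QuotientGroup.mk' N) (QuotientGroup.mk'_surjective N), QuotientGroup.ker_mk']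

theorem VA.of_surj {H : Type*} [Group H] (h : VA G) (f : G →* H) (hf : Function.Surjective f) :
    VA H := (va_iff_ker f hf).2 ((vam_bot.2 h).mono bot_le)

theorem VA.of_inj {H : Type*} [Group H] (h : VA H) (f : G →* H) (hf : Function.Injective f) :
    VA G := by
  have := (vam_bot.2 h).comap f
  rwa [MonoidHom.comap_bot, f.ker_eq_bot_iff.2 hf, vam_bot] at this

theorem va_of_finite [Finite G] : VA G :=
  ⟨⊥, inferInstance, fun a ha b hb => by rw [Subgroup.mem_bot.1 ha, Subgroup.mem_bot.1 hb]⟩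

theorem VA.of_finiteIndex (K : Subgroup G) [K.FiniteIndex] (h : VA K) : VA G := by
  obtain ⟨H, h1, h2⟩ := h
  refine ⟨H.map K.subtype, ?_, ?_⟩
  · have := (FI.of_finiteIndex H).map K.subtype
    rw [← MonoidHom.range_eq_map, Subgroup.range_subtype] at this
    exact this.finiteIndex
  · rintro _ ⟨a, ha, rfl⟩ _ ⟨b, hb, rfl⟩
    exact congrArg Subtype.val (h2 a ha b hb)

/-- finitely generated and (finite)-by-(virtually abelian) is virtually abelian, modulo `N` -/
theorem VAm.of_fi [Group.FG G] {N M : Subgroup G} [N.Normal] (h : VAm M) (hNM : FI N M) :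
    VAm N := by
  rw [← va_quot_iff]
  set π := QuotientGroup.mk' N
  have hπ := QuotientGroup.mk'_surjective N
  have hfin : Finite (M.map π) := by
    have := hNM.map π
    rwa [(Subgroup.map_eq_bot_iff _).2 (by rw [QuotientGroup.ker_mk']), FI.bot_iff] at this
  obtain ⟨H, h1, h2⟩ := h.map π hπ
  have : Group.FG (G ⧸ N) := Group.fg_of_surjective hπ
  have : Finite (commutatorSet H) := by
    refine Finite.of_injective (β := M.map π) (fun x => ⟨x.1.1, ?_⟩) ?_
    · obtain ⟨a, b, hab⟩ := x.2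
      rw [← hab]
      exact h2 a a.2 b b.2
    · intro x y hxy
      have h3 := congrArg Subtype.val hxy
      exact Subtype.ext (Subtype.ext h3)
  refine VA.of_finiteIndex H ⟨Subgroup.center H, inferInstance, fun a ha b _ => ?_⟩
  exact (Subgroup.mem_center_iff.1 ha b).symm

/-! ### derived series, virtually solvable, virtually indicable -/

/-- derived series of a subgroup -/
def dser : ℕ → Subgroup G → Subgroup G
  | 0, K => K
  | n + 1, K => ⁅dser n K, dser n K⁆

theorem dser_zero (K : Subgroup G) : dser 0 K = K := rfl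

theorem dser_succ (n : ℕ) (K : Subgroup G) : dser (n + 1) K = ⁅dser n K, dser n K⁆ := rfl

theorem dser_mono (n : ℕ) {K L : Subgroup G} (h : K ≤ L) : dser n K ≤ dser n L := by
  induction n with
  | zero => exact h
  | succ n ih => exact Subgroup.commutator_mono ih ih

theorem comm_self_le (K : Subgroup G) : ⁅K, K⁆ ≤ K :=
  Subgroup.commutator_le.2 fun a ha b hb => by
    rw [commutatorElement_def]
    exact K.mul_mem (K.mul_mem (K.mul_mem ha hb) (K.inv_mem ha)) (K.inv_mem hb)

theorem dser_succ_le (n : ℕ) (K : Subgroup G) : dser (n + 1) K ≤ dser n K := comm_self_le _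

theorem dser_anti (K : Subgroup G) {m n : ℕ} (h : m ≤ n) : dser n K ≤ dser m K :=
  antitone_nat_of_succ_le (f := fun n => dser n K) (fun n => dser_succ_le n K) h

theorem dser_le (n : ℕ) (K : Subgroup G) : dser n K ≤ K := dser_anti K (Nat.zero_le n)

theorem dser_add (m n : ℕ) (K : Subgroup G) : dser (m + n) K = dser n (dser m K) := by
  induction n with
  | zero => rfl
  | succ n ih => rw [← add_assoc, dser_succ, ih, dser_succ]

theorem dser_map {H : Type*} [Group H] (f : G →* H) (n : ℕ) (K : Subgroup G) :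
    (dser n K).map f = dser n (K.map f) := by
  induction n with
  | zero => rfl
  | succ n ih => rw [dser_succ, Subgroup.map_commutator, ih, dser_succ]

theorem dser_normal (n : ℕ) (K : Subgroup G) [h : K.Normal] : (dser n K).Normal := by
  induction n with
  | zero => exact h
  | succ n ih => exact Subgroup.commutator_normal _ _

/-- `K` is virtually solvable modulo `N` -/
def VSm (N K : Subgroup G) : Prop := ∃ K', FI K' K ∧ ∃ n, dser n K' ≤ N

/-- `K` is virtually solvable -/
def VS (K : Subgroup G) : Prop := VSm ⊥ K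

theorem VSm.mono {N N' K K' : Subgroup G} (h : VSm N K) (hN : N ≤ N') (hK : K' ≤ K) :
    VSm N' K' := by
  obtain ⟨L, h1, n, h2⟩ := h
  exact ⟨L ⊓ K', h1.inf_right hK, n, ((dser_mono n inf_le_left).trans h2).trans hN⟩

theorem VSm.of_fi {N K K' : Subgroup G} (h : VSm N K') (hK : FI K' K) : VSm N K := by
  obtain ⟨L, h1, h2⟩ := h
  exact ⟨L, h1.trans hK, h2⟩

theorem VS.mono {K K' : Subgroup G} (h : VS K) (hK : K' ≤ K) : VS K' := VSm.mono h le_rfl hK

theorem VS.of_fi {K K' : Subgroup G} (h : VS K') (hK : FI K' K) : VS K := VSm.of_fi h hK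

theorem vs_of_comm {K : Subgroup G} (h : ∀ a ∈ K, ∀ b ∈ K, a * b = b * a) : VS K :=
  ⟨K, FI.refl K, 1, Subgroup.commutator_le.2 fun a ha b hb =>
    Subgroup.mem_bot.2 (commutatorElement_eq_one_iff_mul_comm.2 (h a ha b hb))⟩

theorem VA.vs (h : VA G) (K : Subgroup G) : VS K := by
  obtain ⟨H, h1, h2⟩ := h
  exact ((vs_of_comm h2).of_fi (FI.of_finiteIndex H)).mono le_top

/-- `b` is additive on `K` -/
def AddOn {A : Type*} [Add A] (K : Subgroup G) (b : G → A) : Prop :=
  ∀ x ∈ K, ∀ y ∈ K, b (x * y) = b x + b y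

namespace AddOn

variable {A : Type*} [AddCommGroup A] {K K' : Subgroup G} {b : G → A}

theorem mono (h : AddOn K b) (hK : K' ≤ K) : AddOn K' b := fun x hx y hy => h x (hK hx) y (hK hy)

theorem one (h : AddOn K b) : b 1 = 0 := by
  have := h 1 K.one_mem 1 K.one_mem
  rw [mul_one] at this
  exact left_eq_add.1 this

theorem inv (h : AddOn K b) {x : G} (hx : x ∈ K) : b x⁻¹ = -b x := by
  have := h x hx x⁻¹ (K.inv_mem hx)
  rw [mul_inv_cancel, h.one] at this
  exact (neg_eq_of_add_eq_zero_right this.symm).symm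

theorem pow (h : AddOn K b) {x : G} (hx : x ∈ K) (n : ℕ) : b (x ^ n) = n • b x := by
  induction n with
  | zero => rw [pow_zero, h.one, zero_smul]
  | succ n ih => rw [pow_succ, h _ (K.pow_mem hx n) _ hx, ih, succ_nsmul]

theorem zpow (h : AddOn K b) {x : G} (hx : x ∈ K) (n : ℤ) : b (x ^ n) = n • b x := by
  obtain ⟨n, rfl | rfl⟩ := n.eq_nat_or_neg
  · rw [zpow_natCast, h.pow hx, natCast_zsmul]
  · rw [zpow_neg, zpow_natCast, h.inv (K.pow_mem hx n), h.pow hx, neg_smul, natCast_zsmul]

theorem conj (h : AddOn K b) {x y : G} (hx : x ∈ K) (hy : y ∈ K) : b (x * y * x⁻¹) = b y := by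
  rw [h _ (K.mul_mem hx hy) _ (K.inv_mem hx), h _ hx _ hy, h.inv hx]
  abel

theorem comm (h : AddOn K b) {x y : G} (hx : x ∈ K) (hy : y ∈ K) : b ⁅x, y⁆ = 0 := by
  rw [commutatorElement_def, h _ (K.mul_mem (K.mul_mem hx hy) (K.inv_mem hx)) _ (K.inv_mem hy),
    h.conj hx hy, h.inv hy, add_neg_cancel]

/-- the kernel inside `K` -/
def ker (h : AddOn K b) : Subgroup G where
  carrier := {x | x ∈ K ∧ b x = 0}
  one_mem' := ⟨K.one_mem, h.one⟩
  mul_mem' := fun {x y} hx hy => ⟨K.mul_mem hx.1 hy.1, by rw [h x hx.1 y hy.1, hx.2, hy.2, add_zero]⟩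
  inv_mem' := fun {x} hx => ⟨K.inv_mem hx.1, by rw [h.inv hx.1, hx.2, neg_zero]⟩

theorem mem_ker (h : AddOn K b) {x : G} : x ∈ h.ker ↔ x ∈ K ∧ b x = 0 := Iff.rfl

/-- a real additive function vanishing on a finite index subgroup vanishes -/
theorem eq_zero_of_fi [Module ℚ A] (h : AddOn K b) (hK : FI K' K) (h0 : ∀ x ∈ K', b x = 0)
    {x : G} (hx : x ∈ K) : b x = 0 := by
  obtain ⟨n, hn, h1⟩ := hK.pow_mem hx
  have h2 := h0 _ h1
  rw [h.pow hx, ← Nat.cast_smul_eq_nsmul ℚ] at h2
  exact (smul_eq_zero.1 h2).resolve_left (Nat.cast_ne_zero.2 hn.ne')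

end AddOn

/-- `K` is virtually indicable -/
def VInd (K : Subgroup G) : Prop :=
  ∃ K', FI K' K ∧ ∃ b : G → ℝ, AddOn K' b ∧ ∃ x ∈ K', b x ≠ 0

theorem VInd.of_fi {K K' : Subgroup G} (h : VInd K') (hK : FI K' K) : VInd K := by
  obtain ⟨L, h1, h2⟩ := h
  exact ⟨L, h1.trans hK, h2⟩

theorem VInd.fi {K K' : Subgroup G} (h : VInd K) (hK : FI K' K) : VInd K' := by
  obtain ⟨L, h1, b, h2, x, hx, h3⟩ := h
  refine ⟨L ⊓ K', h1.inf_right hK.le, b, h2.mono inf_le_left, ?_⟩
  by_contra h4
  push Not at h4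
  refine h3 (h2.eq_zero_of_fi (K' := L ⊓ K') ?_ h4 hx)
  rw [inf_comm]
  exact hK.inf_right h1.le

/-! ### just non virtually abelian groups -/

/-- finitely generated, not virtually abelian, all proper quotients virtually abelian -/
structure JN (G : Type*) [Group G] : Prop where
  fg : Group.FG G
  not_va : ¬VA G
  quot : ∀ N : Subgroup G, N.Normal → N ≠ ⊥ → VAm N

/-- **Zorn**: a finitely generated group that is not VA has a just non VA quotient -/
theorem exists_JN [Group.FG G] (h : ¬VA G) :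
    ∃ (N : Subgroup G) (_ : N.Normal), JN (G ⧸ N) := by
  obtain ⟨N, -, hN⟩ := zorn_le_nonempty₀ {N : Subgroup G | N.Normal ∧ ¬VAm N} (by
    intro c hc hch y hy
    have hne : c.Nonempty := ⟨y, hy⟩
    have hdir : DirectedOn (· ≤ ·) c := hch.directedOn
    refine ⟨sSup c, ⟨⟨fun x hx g => ?_⟩, ?_⟩, fun z hz => le_sSup hz⟩
    · obtain ⟨M, hM, hx⟩ := (Subgroup.mem_sSup_of_directedOn hne hdir).1 hx
      exact (Subgroup.mem_sSup_of_directedOn hne hdir).2 ⟨M, hM, (hc hM).1.conj_mem x hx g⟩
    · rintro ⟨H, h1, h2⟩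
      obtain ⟨S, hS⟩ := (Group.fg_iff_subgroup_fg H).1 inferInstance
      have h3 : ∀ T : Finset G, (∀ x ∈ T, x ∈ sSup c) → ∃ M ∈ c, ∀ x ∈ T, x ∈ M := by
        classical
        intro T
        induction T using Finset.induction_on with
        | empty => exact fun _ => ⟨y, hy, by simp⟩
        | insert a T _ ih =>
          intro hT
          obtain ⟨M, hM, h4⟩ := ih fun x hx => hT x (Finset.mem_insert_of_mem hx)
          obtain ⟨M', hM', h5⟩ := (Subgroup.mem_sSup_of_directedOn hne hdir).1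
            (hT a (Finset.mem_insert_self _ _))
          obtain ⟨M'', hM'', h6, h7⟩ := hdir M hM M' hM'
          refine ⟨M'', hM'', fun x hx => ?_⟩
          rcases Finset.mem_insert.1 hx with rfl | hx
          · exact h7 h5
          · exact h6 (h4 x hx)
      classical
      obtain ⟨M, hM, h4⟩ := h3 ((S ×ˢ S).image fun p => ⁅p.1, p.2⁆) (by
        intro x hx
        obtain ⟨p, hp, rfl⟩ := Finset.mem_image.1 hx
        have := Finset.mem_product.1 hp
        exact h2 _ (hS ▸ Subgroup.subset_closure this.1) _ (hS ▸ Subgroup.subset_closure this.2))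
      have := (hc hM).1
      refine (hc hM).2 ⟨H, h1, fun a ha b hb => ?_⟩
      rw [← QuotientGroup.eq_one_iff, ← QuotientGroup.mk'_apply, map_commutatorElement,
        commutatorElement_eq_one_iff_commute]
      rw [← hS] at ha hb
      refine Subgroup.closure_induction₂ (p := fun a b _ _ =>
        Commute (QuotientGroup.mk' M a) (QuotientGroup.mk' M b)) ?_ ?_ ?_ ?_ ?_ ?_ ?_ ha hb
      · intro a b ha hb
        rw [← commutatorElement_eq_one_iff_commute, ← map_commutatorElement,
          QuotientGroup.mk'_apply, QuotientGroup.eq_one_iff]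
        exact h4 _ (Finset.mem_image.2 ⟨(a, b), Finset.mem_product.2 ⟨ha, hb⟩, rfl⟩)
      · intro x _; rw [map_one]; exact Commute.one_left _
      · intro x _; rw [map_one]; exact Commute.one_right _
      · intro x y z _ _ _ h5 h6; rw [map_mul]; exact h5.mul_left h6
      · intro x y z _ _ _ h5 h6; rw [map_mul]; exact h5.mul_right h6
      · intro x y _ _ h5; rw [map_inv]; exact h5.inv_left
      · intro x y _ _ h5; rw [map_inv]; exact h5.inv_right) ⊥
    ⟨inferInstance, fun h' => h (vam_bot.1 h')⟩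
  have := hN.prop.1
  have hπ := QuotientGroup.mk'_surjective N
  refine ⟨N, this, Group.fg_of_surjective hπ, fun h' => hN.prop.2 ((va_quot_iff N).1 h'),
    fun M hM hM0 => ?_⟩
  rw [← vam_comap_iff _ hπ]
  by_contra h1
  have h2 : N ≤ M.comap (QuotientGroup.mk' N) := by
    have := MonoidHom.ker_le_comap (QuotientGroup.mk' N) M
    rwa [QuotientGroup.ker_mk'] at this
  have h3 := hN.le_of_ge ⟨hM.comap _, h1⟩ h2
  refine hM0 (eq_bot_iff.2 fun x hx => ?_)
  obtain ⟨x, rfl⟩ := hπ x
  exact Subgroup.mem_bot.2 ((QuotientGroup.eq_one_iff x).2 (h3 hx))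

namespace JN

variable (hG : JN G)
include hG

theorem infinite : Infinite G := by
  by_contra h
  rw [not_infinite_iff_finite] at h
  exact hG.not_va va_of_finite

theorem not_vam_bot : ¬VAm (⊥ : Subgroup G) := fun h => hG.not_va (vam_bot.1 h)

theorem inf_ne_bot {N M : Subgroup G} (hN : N.Normal) (hM : M.Normal) (hN0 : N ≠ ⊥)
    (hM0 : M ≠ ⊥) : N ⊓ M ≠ ⊥ := fun h =>
  hG.not_vam_bot (h ▸ (hG.quot N hN hN0).inf (hG.quot M hM hM0))

/-- no nontrivial finite normal subgroup -/
theorem infinite_normal {N : Subgroup G} (hN : N.Normal) (hN0 : N ≠ ⊥) : Infinite N := by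
  by_contra h
  rw [not_infinite_iff_finite] at h
  have := hG.fg
  exact hG.not_vam_bot ((hG.quot N hN hN0).of_fi (FI.bot_iff.2 h))

theorem ne_bot_of_fi {N M : Subgroup G} (hM : M.Normal) (hM0 : M ≠ ⊥) (h : FI N M) : N ≠ ⊥ := by
  rintro rfl
  have := hG.infinite_normal hM hM0
  have := h.finite
  exact not_finite M

theorem equiv {H : Type*} [Group H] (e : G ≃* H) : JN H := by
  have := hG.fg
  refine ⟨Group.fg_of_surjective (f := e.toMonoidHom) e.surjective,
    fun h => hG.not_va (h.of_inj e.toMonoidHom e.injective), fun N hN hN0 => ?_⟩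
  rw [← vam_comap_iff e.toMonoidHom e.surjective]
  refine hG.quot _ (hN.comap _) fun h => hN0 ?_
  rw [← Subgroup.map_comap_eq_self_of_surjective (f := e.toMonoidHom) e.surjective N, h,
    Subgroup.map_bot]

end JN

/-! ### amenability -/

theorem amen_of_fi {K K' : Subgroup G} (h : FI K' K) (hK : Amen K') : Amen K := by
  obtain ⟨C, h1, h2, h3⟩ := h.exists_core
  have : (C.subgroupOf K).Normal := ⟨fun x hx g => h3 g g.2 x hx⟩
  have := h2.subgroupOf
  refine amen_of_ker (QuotientGroup.mk' (C.subgroupOf K)) amen_finite ?_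
  rw [QuotientGroup.ker_mk']
  refine Amen.equiv ?_ (Subgroup.subgroupOfEquivOfLe h2.le).symm
  exact hK.of_inj (Subgroup.inclusion h1) (Subgroup.inclusion_injective h1)

theorem amen_top_iff : Amen (⊤ : Subgroup G) ↔ Amen G :=
  ⟨fun h => h.equiv Subgroup.topEquiv, fun h => h.subgroup ⊤⟩

theorem amen_mono {K K' : Subgroup G} (hK : Amen K) (h : K' ≤ K) : Amen K' :=
  hK.of_inj (Subgroup.inclusion h) (Subgroup.inclusion_injective h)

theorem amen_of_comm_amen {K : Subgroup G} (h : Amen (⁅K, K⁆ : Subgroup G)) : Amen K := by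
  refine amen_of_ker (Abelianization.of (G := K)) amen_comm ?_
  rw [Abelianization.ker_of]
  refine h.of_inj
    ((K.subtype.comp (commutator K).subtype).codRestrict ⁅K, K⁆ fun x => ?_) ?_
  · have : (commutator K).map K.subtype = ⁅K, K⁆ := by
      rw [commutator_def, Subgroup.map_commutator, ← MonoidHom.range_eq_map,
        Subgroup.range_subtype]
    exact this ▸ ⟨x.1, x.2, rfl⟩
  · intro x y hxy
    have h3 := congrArg Subtype.val hxy
    exact Subtype.ext (Subtype.ext h3)

theorem amen_of_dser {K : Subgroup G} (n : ℕ) (h : Amen (dser n K)) : Amen K := by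
  induction n with
  | zero => exact h
  | succ n ih => exact ih (amen_of_comm_amen h)

theorem VSm.amen {N K : Subgroup G} (h : VSm N K) (hN : Amen N) : Amen K := by
  obtain ⟨L, h1, n, h2⟩ := h
  exact amen_of_fi h1 (amen_of_dser n (amen_mono hN h2))

theorem VS.amen {K : Subgroup G} (h : VS K) : Amen K := VSm.amen h amen_finite

theorem VA.amen (h : VA G) : Amen G := amen_top_iff.1 (h.vs ⊤).amen

theorem VAm.amen {N : Subgroup G} (h : VAm N) (hN : Amen N) : Amen G := by
  obtain ⟨H, h1, h2⟩ := h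
  exact amen_top_iff.1 (VSm.amen ⟨H, FI.of_finiteIndex H, 1, Subgroup.commutator_le.2 h2⟩ hN)

/-- a non amenable just non VA group has trivial amenable radical -/
theorem JN.eq_bot_of_amen (hG : JN G) (h : ¬Amen G) {N : Subgroup G} (hN : N.Normal)
    (hA : Amen N) : N = ⊥ := by
  by_contra h0
  exact h ((hG.quot N hN h0).amen hA)

/-- relative Reiter condition: the elements of `K` almost fix probabilities on `G` -/
theorem amen_of_rt (K : Subgroup G) (h : Rt fun (x : K) (g : G) => (x : G) * g) : Amen K := by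
  let t : G → G := fun g => Quotient.out (Quotient.mk (QuotientGroup.rightRel K) g)
  have ht : ∀ g, g * (t g)⁻¹ ∈ K := fun g =>
    QuotientGroup.rightRel_apply.1
      (Quotient.exact (Quotient.out_eq (Quotient.mk (QuotientGroup.rightRel K) g)))
  have ht2 : ∀ (x : K) (g : G), t (x * g) = t g := fun x g => by
    have : Quotient.mk (QuotientGroup.rightRel K) ((x : G) * g)
        = Quotient.mk (QuotientGroup.rightRel K) g := by
      apply Quotient.sound
      change (QuotientGroup.rightRel K).r _ _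
      rw [QuotientGroup.rightRel_apply, show g * ((x : G) * g)⁻¹ = (x : G)⁻¹ by group]
      exact K.inv_mem x.2
    change Quotient.out _ = Quotient.out _
    rw [this]
  refine h.map (fun g => (⟨g * (t g)⁻¹, ht g⟩ : K)) fun x g => Subtype.ext ?_
  change (x : G) * g * (t (x * g))⁻¹ = x * (g * (t g)⁻¹)
  rw [ht2, mul_assoc]

/-- an equivariant retraction of `G` onto a subgroup -/
theorem exists_retr (K : Subgroup G) :
    ∃ r : G → G, (∀ g, r g ∈ K) ∧ ∀ x ∈ K, ∀ g, r (x * g) = x * r g := by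
  let t : G → G := fun g => Quotient.out (Quotient.mk (QuotientGroup.rightRel K) g)
  refine ⟨fun g => g * (t g)⁻¹, fun g => QuotientGroup.rightRel_apply.1
      (Quotient.exact (Quotient.out_eq (Quotient.mk (QuotientGroup.rightRel K) g))),
    fun x hx g => ?_⟩
  have : Quotient.mk (QuotientGroup.rightRel K) (x * g)
      = Quotient.mk (QuotientGroup.rightRel K) g := by
    apply Quotient.sound
    change (QuotientGroup.rightRel K).r _ _
    rw [QuotientGroup.rightRel_apply, show g * (x * g)⁻¹ = x⁻¹ by group]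
    exact K.inv_mem hx
  change x * g * (Quotient.out _)⁻¹ = x * (g * (Quotient.out _)⁻¹)
  rw [this, mul_assoc]

/-! ### virtually solvable groups are virtually indicable -/

theorem exists_add_of_infinite (A : Type*) [CommGroup A] [Group.FG A] [Infinite A] :
    ∃ b : A → ℝ, (∀ x y, b (x * y) = b x + b y) ∧ ∃ x, b x ≠ 0 := by
  classical
  obtain ⟨n, ι, fι, p, hp, e, ⟨f⟩⟩ := AddCommGroup.equiv_free_prod_directSum_zmod (Additive A)
  rcases n with - | n
  · exfalso
    have h1 : ∀ i, NeZero (p i ^ e i) := fun i => ⟨pow_ne_zero _ (hp i).ne_zero⟩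
    have h2 : Finite (DirectSum ι fun i => ZMod (p i ^ e i)) :=
      Finite.of_equiv _ (DFinsupp.equivFunOnFintype (β := fun i => ZMod (p i ^ e i))).symm
    have h5 : Finite (Additive A) := Finite.of_equiv _ f.symm.toEquiv
    have h6 : Finite A := Finite.of_equiv _ (Additive.toMul (α := A))
    exact not_finite A
  · refine ⟨fun a => ((f (Additive.ofMul a)).1 0 : ℤ), fun x y => ?_,
      Additive.toMul (f.symm (Finsupp.single 0 1, 0)), by simp⟩
    simp

theorem vind_of_not_fi {K : Subgroup G} (hK : K.FG) (h : ¬FI ⁅K, K⁆ K) : VInd K := by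
  classical
  have : Group.FG K := (Group.fg_iff_subgroup_fg K).2 hK
  have : Group.FG (Abelianization K) :=
    Group.fg_of_surjective (f := Abelianization.of) fun x => QuotientGroup.mk_surjective x
  have : Infinite (Abelianization K) := by
    by_contra h1
    rw [not_infinite_iff_finite] at h1
    refine h ⟨comm_self_le K, ?_⟩
    have h2 : (⁅K, K⁆ : Subgroup G).subgroupOf K = commutator K := by
      have : (commutator K).map K.subtype = ⁅K, K⁆ := by
        rw [commutator_def, Subgroup.map_commutator, ← MonoidHom.range_eq_map,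
          Subgroup.range_subtype]
      rw [← this, Subgroup.subgroupOf,
        Subgroup.comap_map_eq_self_of_injective K.subtype_injective]
    rw [Subgroup.relIndex, h2]
    have : Finite (K ⧸ commutator K) := h1
    exact Subgroup.index_ne_zero_of_finite
  obtain ⟨b, hb, x, hx⟩ := exists_add_of_infinite (Abelianization K)
  obtain ⟨x, rfl⟩ : ∃ y : K, Abelianization.of y = x := QuotientGroup.mk_surjective x
  refine ⟨K, FI.refl K, fun g => if hg : g ∈ K then b (Abelianization.of ⟨g, hg⟩) else 0,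
    fun x hx y hy => ?_, x, x.2, by simpa using hx⟩
  simp only [hx, hy, K.mul_mem hx hy, dif_pos]
  rw [← hb, ← map_mul]
  rfl

/-- virtually solvable modulo a subgroup of infinite index implies virtually indicable -/
theorem VSm.vind {N K : Subgroup G} (h : VSm N K) (hK : K.FG) (hN : ¬FI (N ⊓ K) K) : VInd K := by
  obtain ⟨L, h1, n, h2⟩ := h
  by_contra h3
  have h4 : ∀ m, FI (dser m L) K := by
    intro m
    induction m with
    | zero => exact h1
    | succ m ih =>
      by_contra h5
      exact h3 ((vind_of_not_fi (ih.fg hK) fun h6 => h5 (h6.trans ih)).of_fi ih)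
  exact hN ((h4 n).of_le (le_inf h2 (h4 n).le) inf_le_right)

theorem VS.vind {K : Subgroup G} (h : VS K) (hK : K.FG) [Infinite K] : VInd K :=
  VSm.vind h hK fun h1 => by
    rw [bot_inf_eq, FI.bot_iff] at h1
    exact not_finite K

end Crest.Agent.X261.Grp
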