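import Crest.Agent.X261.Grp.Fur

/-!
# Row 261, package GRP (helper85): weak Tits alternatives
-/

set_option autoImplicit false

noncomputable section

namespace Crest.Agent.X261.Grp

open Module Filter Topology Crest.Agent.R189

universe u

variable {G : Type*} [Group G]

/-- Burnside's theorem -/
theorem burnside {V : Type*} [AddCommGroup V] [Module ℂ V] [FiniteDimensional ℂ V]
    [Nontrivial V] (A : Subalgebra ℂ (End ℂ V))
    (hA : ∀ W : Submodule ℂ V, (∀ a ∈ A, W ≤ W.comap a) → W = ⊥ ∨ W = ⊤) : A = ⊤ := by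
  have hsimple : IsSimpleModule A V := by
    rw [isSimpleModule_iff]
    refine { exists_pair_ne := ⟨⊥, ⊤, bot_ne_top⟩, eq_bot_or_eq_top := fun W => ?_ }
    rcases hA (W.restrictScalars ℂ) (fun a ha w hw => W.smul_mem (⟨a, ha⟩ : A) hw) with h | h
    · exact Or.inl (Submodule.restrictScalars_eq_bot_iff ℂ A V |>.1 h)
    · exact Or.inr (Submodule.restrictScalars_eq_top_iff ℂ A V |>.1 h)
  classical
  have hbij := IsSimpleModule.algebraMap_end_bijective_of_isAlgClosed (A := A) (V := V) ℂ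
  rw [eq_top_iff]
  intro f _
  let f' : End (End A V) V :=
    { toFun := f
      map_add' := map_add f
      map_smul' := by
        intro φ v
        obtain ⟨c, rfl⟩ := hbij.2 φ
        simp only [Module.algebraMap_end_eq_smul_id]
        exact map_smul f c v }
  let b := Module.finBasis ℂ V
  obtain ⟨r, hr⟩ := jacobson_density (R := A) f' (Finset.univ.image b)
  have : f = (r : End ℂ V) := b.ext fun i => hr (b i) (by simp)
  rw [this]
  exact r.2

/-- the image of `K` under `ρ` is virtually solvable -/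
def VSr {A : Type*} [Monoid A] (K : Subgroup G) (ρ : G → A) : Prop :=
  ∃ K', FI K' K ∧ ∃ n, ∀ x ∈ dser n K', ρ x = 1

theorem VSr.vsm {A : Type*} [Monoid A] {K : Subgroup G} {ρ : G →* A} (h : VSr K ρ) :
    VSm (RepOn.of_hom ρ ⊤).ker K := by
  obtain ⟨K', h1, n, h2⟩ := h
  exact ⟨K', h1, n, fun x hx => ⟨trivial, h2 x hx⟩⟩

/-- virtually solvable image, or a strongly irreducible subquotient of dimension `> 1` -/
theorem struct (n : ℕ) : ∀ (V : Type u) [AddCommGroup V] [Module ℂ V] [FiniteDimensional ℂ V],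
    finrank ℂ V ≤ n → ∀ (K : Subgroup G) (ρ : G → End ℂ V), RepOn K ρ →
    VSr K ρ ∨ ∃ K', FI K' K ∧ ∃ d, 1 < d ∧ ∃ Λ : End ℂ V →ₗ[ℂ] Matrix (Fin d) (Fin d) ℂ,
      RepOn K' (fun g => Λ (ρ g)) ∧ SSp K' fun g => Λ (ρ g) := by
  induction n with
  | zero =>
    intro V _ _ _ hV K ρ hρ
    have : Subsingleton V := Module.finrank_zero_iff.1 (Nat.le_zero.1 hV)
    exact Or.inl ⟨K, FI.refl K, 0, fun x _ => Subsingleton.elim _ _⟩
  | succ n ih =>
    intro V _ _ _ hV K ρ hρ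
    by_cases h1 : finrank ℂ V ≤ 1
    · obtain ⟨v, hv⟩ := finrank_le_one_iff.1 h1
      refine Or.inl ⟨K, FI.refl K, 1, fun x hx => ?_⟩
      refine ((Subgroup.commutator_le (H₃ := hρ.ker)).2 (fun a ha b hb => ?_) hx).2
      refine hρ.comm_mem_ker ha hb (LinearMap.ext fun w => ?_)
      obtain ⟨c, rfl⟩ := hv w
      obtain ⟨c1, h2⟩ := hv (ρ a v)
      obtain ⟨c2, h3⟩ := hv (ρ b v)
      simp only [End.mul_apply, map_smul, ← h2, ← h3, smul_smul, mul_comm]
    by_cases h2 : ∀ K', FI K' K → ∀ W : Submodule ℂ V, (∀ x ∈ K', W ≤ W.comap (ρ x)) →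
        W = ⊥ ∨ W = ⊤
    · let e := LinearMap.toMatrixAlgEquiv (Module.finBasis ℂ V)
      have : Nontrivial V := Module.nontrivial_of_finrank_pos (R := ℂ) (by omega)
      refine Or.inr ⟨K, FI.refl K, finrank ℂ V, not_le.1 h1, e.toLinearMap,
        hρ.comp e.toRingHom.toMonoidHom, fun K' hK' => ?_⟩
      have h3 := burnside (Algebra.adjoin ℂ (ρ '' K')) fun W hW =>
        h2 K' hK' W fun x hx => hW _ (Algebra.subset_adjoin ⟨x, hx, rfl⟩)
      have h4 : Submodule.span ℂ (ρ '' K') = ⊤ := by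
        rw [eq_top_iff, ← Algebra.top_toSubmodule, ← h3, Algebra.adjoin_eq_span]
        refine Submodule.span_mono fun T hT => ?_
        induction hT using Submonoid.closure_induction with
        | mem T hT => exact hT
        | one => exact ⟨1, K'.one_mem, hρ.one⟩
        | mul _ _ _ _ ha hb =>
          obtain ⟨a, ha, rfl⟩ := ha
          obtain ⟨b, hb, rfl⟩ := hb
          exact ⟨a * b, K'.mul_mem ha hb, hρ.mul a (hK'.le ha) b (hK'.le hb)⟩
      rw [show (fun g => e.toLinearMap (ρ g)) '' K' = e.toLinearMap '' (ρ '' K') from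
        (Set.image_image _ _ _).symm, ← Submodule.map_span, h4, Submodule.map_top,
        LinearMap.range_eq_top]
      exact e.surjective
    push Not at h2
    obtain ⟨K', hK', W, hW, hW0, hW1⟩ := h2
    have hρ' := hρ.mono hK'.le
    obtain ⟨p, hp⟩ := W.subtype.exists_leftInverse_of_injective W.ker_subtype
    obtain ⟨s, hs⟩ := W.mkQ.exists_rightInverse_of_surjective W.range_mkQ
    have hp' : ∀ w ∈ W, (p w : V) = w := fun w hw =>
      congrArg Subtype.val (LinearMap.congr_fun hp ⟨w, hw⟩)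
    have hs' : ∀ y, s (W.mkQ y) - y ∈ W := fun y =>
      (Submodule.Quotient.eq W).1 (LinearMap.congr_fun hs (W.mkQ y))
    let Λ1 : End ℂ V →ₗ[ℂ] End ℂ W :=
      { toFun := fun T => p ∘ₗ T ∘ₗ W.subtype
        map_add' := fun T T' => by ext; simp
        map_smul' := fun c T => by ext; simp }
    let Λ2 : End ℂ V →ₗ[ℂ] End ℂ (V ⧸ W) :=
      { toFun := fun T => W.mkQ ∘ₗ T ∘ₗ s
        map_add' := fun T T' => LinearMap.ext fun q => by simp
        map_smul' := fun c T => LinearMap.ext fun q => by simp }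
    have h3 : ∀ x ∈ K', ∀ w : W, (Λ1 (ρ x) w : V) = ρ x w := fun x hx w => hp' _ (hW x hx w.2)
    have h4 : ∀ x ∈ K', ∀ y, Λ2 (ρ x) (W.mkQ y) = W.mkQ (ρ x y) := fun x hx y =>
      (Submodule.Quotient.eq W).2 (by
        change ρ x (s (W.mkQ y)) - ρ x y ∈ W
        rw [← map_sub]; exact hW x hx (hs' y))
    have hr1 : RepOn K' fun g => Λ1 (ρ g) := by
      refine ⟨LinearMap.ext fun w => Subtype.ext ?_, fun a ha b hb =>
        LinearMap.ext fun w => Subtype.ext ?_⟩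
      · rw [h3 1 K'.one_mem, hρ.one]; rfl
      · rw [End.mul_apply, h3 _ (K'.mul_mem ha hb), h3 a ha, h3 b hb, hρ'.mul a ha b hb]; rfl
    have hr2 : RepOn K' fun g => Λ2 (ρ g) := by
      refine ⟨LinearMap.ext fun q => ?_, fun a ha b hb => LinearMap.ext fun q => ?_⟩ <;>
        obtain ⟨y, rfl⟩ := W.mkQ_surjective q
      · rw [h4 1 K'.one_mem, hρ.one]; rfl
      · rw [End.mul_apply, h4 _ (K'.mul_mem ha hb), h4 b hb, h4 a ha, hρ'.mul a ha b hb]; rfl
    have h5 := W.finrank_quotient_add_finrank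
    have h6 := Submodule.finrank_lt hW1
    have h7 : 0 < finrank ℂ W := by
      rw [pos_iff_ne_zero, Ne, Submodule.finrank_eq_zero]; exact hW0
    rcases ih W (by omega) K' _ hr1 with ⟨K1, hK1, n1, h8⟩ | ⟨K1, hK1, d, hd, Λ, h8⟩
    swap
    · exact Or.inr ⟨K1, hK1.trans hK', d, hd, Λ ∘ₗ Λ1, h8⟩
    rcases ih (V ⧸ W) (by omega) K' _ hr2 with ⟨K2, hK2, n2, h9⟩ | ⟨K2, hK2, d, hd, Λ, h9⟩
    swap
    · exact Or.inr ⟨K2, hK2.trans hK', d, hd, Λ ∘ₗ Λ2, h9⟩
    refine Or.inl ⟨K1 ⊓ K2, (hK1.inf hK2).trans hK', max n1 n2 + 1, fun x hx => ?_⟩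
    have h10 : ∀ a ∈ dser (max n1 n2) (K1 ⊓ K2), a ∈ K' ∧ (∀ w ∈ W, ρ a w = w) ∧
        ∀ y, ρ a y - y ∈ W := fun a ha => by
      have h10 : a ∈ K' := (hK1.inf hK2).le (dser_le _ _ ha)
      refine ⟨h10, fun w hw => ?_, fun y => ?_⟩
      · have h11 : Λ1 (ρ a) = 1 :=
          h8 a (dser_mono _ inf_le_left (dser_anti _ (le_max_left _ _) ha))
        have h12 := h3 a h10 ⟨w, hw⟩
        rw [h11] at h12
        exact h12.symm
      · have h11 : Λ2 (ρ a) = 1 :=
          h9 a (dser_mono _ inf_le_right (dser_anti _ (le_max_right _ _) ha))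
        have h12 := h4 a h10 y
        rw [h11] at h12
        exact (Submodule.Quotient.eq W).1 h12.symm
    refine ((Subgroup.commutator_le (H₃ := hρ'.ker)).2 (fun a ha b hb => ?_) hx).2
    obtain ⟨ha1, ha2, ha3⟩ := h10 a ha
    obtain ⟨hb1, hb2, hb3⟩ := h10 b hb
    refine hρ'.comm_mem_ker ha1 hb1 (LinearMap.ext fun y => ?_)
    have h11 := ha2 _ (hb3 y)
    have h12 := hb2 _ (ha3 y)
    rw [map_sub, sub_eq_iff_eq_add] at h11 h12
    rw [End.mul_apply, End.mul_apply, h11, h12]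
    abel

section Mat

variable {ι : Type} [Fintype ι] [DecidableEq ι]

theorem exists_entries [Group.FG G] (ρ : G →* Matrix ι ι ℂ) :
    ∃ T : Finset ℂ, ∀ g i j, ρ g i j ∈ Subring.closure (T : Set ℂ) := by
  classical
  obtain ⟨S, hS, hfin⟩ := Monoid.fg_iff.1 (Group.fg_iff_monoid_fg.1 ‹Group.FG G›)
  refine ⟨(hfin.toFinset ×ˢ Finset.univ).image fun p : G × ι × ι => ρ p.1 p.2.1 p.2.2,
    fun g => ?_⟩
  have hg : g ∈ Submonoid.closure S := hS ▸ Submonoid.mem_top g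
  induction hg using Submonoid.closure_induction with
  | mem g hg =>
    exact fun i j => Subring.subset_closure (Finset.mem_coe.2 (Finset.mem_image.2
      ⟨(g, i, j), Finset.mem_product.2 ⟨hfin.mem_toFinset.2 hg, Finset.mem_univ _⟩, rfl⟩))
  | one =>
    intro i j
    rw [map_one, Matrix.one_apply]
    split_ifs
    exacts [Subring.one_mem _, Subring.zero_mem _]
  | mul a b _ _ ha hb =>
    intro i j
    rw [map_mul, Matrix.mul_apply]
    exact Subring.sum_mem _ fun l _ => Subring.mul_mem _ (ha i l) (hb l j)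

/-- matrix form of `struct`, with the finitely generated ring of entries -/
theorem struct_mat [Group.FG G] (ρ : G →* Matrix ι ι ℂ) (K : Subgroup G) :
    VSr K ρ ∨ ∃ K', FI K' K ∧ ∃ d, 1 < d ∧ ∃ Λ : Matrix ι ι ℂ →ₗ[ℂ] Matrix (Fin d) (Fin d) ℂ,
      RepOn K' (fun g => Λ (ρ g)) ∧ SSp K' (fun g => Λ (ρ g)) ∧
      ∃ T : Finset ℂ, ∀ g ∈ K', ∀ i j, Λ (ρ g) i j ∈ Subring.closure (T : Set ℂ) := by
  classical
  let e : Matrix ι ι ℂ ≃ₐ[ℂ] End ℂ (ι → ℂ) := Matrix.toLinAlgEquiv'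
  rcases struct _ (ι → ℂ) le_rfl K _ ((RepOn.of_hom ρ K).comp e.toRingHom.toMonoidHom) with
    ⟨K', hK', n, h⟩ | ⟨K', hK', d, hd, Λ, h1, h2⟩
  · exact Or.inl ⟨K', hK', n, fun x hx => e.injective ((h x hx).trans (map_one e).symm)⟩
  obtain ⟨T, hT⟩ := exists_entries ρ
  let Λ' := Λ ∘ₗ e.toLinearMap
  refine Or.inr ⟨K', hK', d, hd, Λ', h1, h2, T ∪ Finset.univ.image
    fun p : (ι × ι) × Fin d × Fin d => Λ' (Matrix.single p.1.1 p.1.2 1) p.2.1 p.2.2,
    fun g _ i j => ?_⟩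
  have h3 : ρ g = ∑ k, ∑ l, ρ g k l • Matrix.single k l (1 : ℂ) := by
    conv_lhs => rw [Matrix.matrix_eq_sum_single (ρ g)]
    simp
  rw [h3]
  simp only [map_sum, map_smul, Matrix.sum_apply, Matrix.smul_apply, smul_eq_mul]
  refine Subring.sum_mem _ fun k _ => Subring.sum_mem _ fun l _ => Subring.mul_mem _ ?_ ?_
  · exact Subring.closure_mono (by simp) (hT g k l)
  · exact Subring.subset_closure (Finset.mem_coe.2 (Finset.mem_union_right _
      (Finset.mem_image.2 ⟨((k, l), i, j), Finset.mem_univ _, rfl⟩)))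

/-- the elements acting by scalars -/
def scal {K : Subgroup G} {ρ : G → Matrix ι ι ℂ} (hρ : RepOn K ρ) : Subgroup G where
  carrier := {g | g ∈ K ∧ ∃ c : ℂ, ρ g = c • 1}
  one_mem' := ⟨K.one_mem, 1, by rw [hρ.one, one_smul]⟩
  mul_mem' := by
    rintro a b ⟨ha, c, hc⟩ ⟨hb, c', hc'⟩
    exact ⟨K.mul_mem ha hb, c * c', by rw [hρ.mul a ha b hb, hc, hc', smul_mul_smul_comm, one_mul]⟩
  inv_mem' := by
    rintro a ⟨ha, c, hc⟩
    have h := hρ.mul_inv ha
    rw [hc, smul_mul_assoc, one_mul] at h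
    refine ⟨K.inv_mem ha, c⁻¹, ?_⟩
    by_cases h0 : c = 0
    · rw [h0, zero_smul] at h
      rw [← mul_one (ρ a⁻¹), ← h, mul_zero, smul_zero]
    · rw [← h, smul_smul, inv_mul_cancel₀ h0, one_smul]

theorem not_fi_scal {K : Subgroup G} {d : ℕ} (hd : 1 < d) {ρ : G → Matrix (Fin d) (Fin d) ℂ}
    (hρ : RepOn K ρ) (hS : SSp K ρ) : ¬FI (scal hρ) K := fun h => by
  have h1 : Submodule.span ℂ (ρ '' scal hρ) ≤ Submodule.span ℂ {1} :=
    Submodule.span_le.2 (by
      rintro _ ⟨g, ⟨-, c, hc⟩, rfl⟩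
      exact Submodule.mem_span_singleton.2 ⟨c, hc.symm⟩)
  rw [hS _ h] at h1
  obtain ⟨c, hc⟩ := Submodule.mem_span_singleton.1
    (h1 (Submodule.mem_top (x := Matrix.single ⟨0, by omega⟩ ⟨1, hd⟩ 1)))
  have h2 := congrFun (congrFun hc ⟨0, by omega⟩) ⟨1, hd⟩
  simp at h2

theorem mem_scal {K : Subgroup G} {ρ : G → Matrix ι ι ℂ} (hρ : RepOn K ρ) {a b : G} (ha : a ∈ K)
    (hb : b ∈ K) {c : ℂ} (h : ρ a = c • ρ b) : b⁻¹ * a ∈ scal hρ :=
  ⟨K.mul_mem (K.inv_mem hb) ha, c, by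
    rw [hρ.mul _ (K.inv_mem hb) _ ha, h, mul_smul_comm, hρ.inv_mul hb]⟩

end Mat

/-- weak overlap: finitely many elements of `A` have a common probability with overlap `c0` -/
def WO (c0 : ℝ) (A : Set G) : Prop :=
  ∀ F : Finset G, (∀ g ∈ F, g ∈ A) →
    ∃ p, IsProb p ∧ ∀ g ∈ F, l1 (p.mapDomain (fun x => g * x) - p) ≤ 2 - c0

theorem WO.mono {c0 : ℝ} {A B : Set G} (h : WO c0 A) (hB : B ⊆ A) : WO c0 B :=
  fun F hF => h F fun g hg => hB (hF g hg)

theorem exists_prob_of_amen {K : Subgroup G} (hK : Amen K) (F : Finset G) (hF : ∀ g ∈ F, g ∈ K)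
    {ε : ℝ} (hε : 0 < ε) :
    ∃ p, IsProb p ∧ ∀ g ∈ F, l1 (p.mapDomain (fun x => g * x) - p) < ε := by
  classical
  obtain ⟨p, hp, hp2⟩ := hK (F.attach.image fun g : {x // x ∈ F} => (⟨g.1, hF g.1 g.2⟩ : K)) ε hε
  refine ⟨p.mapDomain fun x : K => (x : G), hp.map _, fun g hg => ?_⟩
  have e : (p.mapDomain fun x : K => (x : G)).mapDomain (fun x => g * x)
      - p.mapDomain (fun x : K => (x : G))
      = (p.mapDomain (fun x : K => (⟨g, hF g hg⟩ : K) * x) - p).mapDomain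
        fun x : K => (x : G) := by
    rw [mapDomain_sub, ← Finsupp.mapDomain_comp, ← Finsupp.mapDomain_comp]
    rfl
  rw [e]
  exact (l1_mapDomain_le _ _).trans_lt
    (hp2 _ (Finset.mem_image.2 ⟨⟨g, hg⟩, Finset.mem_attach _ _, rfl⟩))

theorem wo_of_amen {K : Subgroup G} (hK : Amen K) : WO 1 (K : Set G) := fun F hF => by
  obtain ⟨p, hp, h⟩ := exists_prob_of_amen hK F hF one_pos
  exact ⟨p, hp, fun g hg => (h g hg).le.trans (by norm_num)⟩

variable {ι : Type} [Fintype ι] [DecidableEq ι]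

/-- **weak Tits alternative**: weak overlap on a subgroup forces virtually solvable image -/
theorem vsr_of_wo [Group.FG G] (ρ : G →* Matrix ι ι ℂ) {K : Subgroup G} {c0 : ℝ} (hc0 : 0 < c0)
    (hK : WO c0 (K : Set G)) : VSr K ρ := by
  classical
  rcases struct_mat ρ K with h | ⟨K', hK', d, hd, Λ, h1, h2, h3⟩
  · exact h
  exfalso
  have : Infinite (K' ⧸ (scal h1).subgroupOf K') := by
    by_contra h4
    rw [not_infinite_iff_finite] at h4
    exact not_fi_scal hd h1 h2 ⟨fun _ h => h.1, Subgroup.index_ne_zero_of_finite⟩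
  let q := Infinite.natEmbedding (K' ⧸ (scal h1).subgroupOf K')
  obtain ⟨Γ, hΓ, h4⟩ := fur h1 h2 h3 (fun k => ((q k).out : G)) (fun k => (q k).out.2)
    (fun k l hkl c h => hkl (q.injective (by
      rw [← QuotientGroup.out_eq' (q k), ← QuotientGroup.out_eq' (q l), eq_comm, QuotientGroup.eq]
      exact mem_scal h1 (q k).out.2 (q l).out.2 h))) hc0
  obtain ⟨k, hk⟩ := h4.exists
  obtain ⟨p, hp, h5⟩ := hK (Γ.image fun γ => γ⁻¹ * (q k).out * γ) fun g hg => by
    obtain ⟨γ, hγ, rfl⟩ := Finset.mem_image.1 hg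
    exact hK'.le (K'.mul_mem (K'.mul_mem (K'.inv_mem (hΓ γ hγ)) (q k).out.2) (hΓ γ hγ))
  obtain ⟨γ, hγ, h6⟩ := hk p hp
  exact absurd (h5 _ (Finset.mem_image_of_mem _ hγ)) (not_le.2 h6)

/-- **TITS-A**: amenable subgroups of finitely generated groups have virtually solvable images -/
theorem vsr_of_amen [Group.FG G] (ρ : G →* Matrix ι ι ℂ) {K : Subgroup G} (hK : Amen K) :
    VSr K ρ := vsr_of_wo ρ one_pos (wo_of_amen hK)

/-- a linear representation of an amenable, not virtually indicable group has finite image -/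
theorem finite_of_not_vind [Group.FG G] (ρ : G →* Matrix ι ι ℂ) {K : Subgroup G} (hK : Amen K)
    (hfg : K.FG) (h : ¬VInd K) : ∃ K', FI K' K ∧ ∀ x ∈ K', ρ x = 1 := by
  by_contra h1
  exact h ((vsr_of_amen ρ hK).vsm.vind hfg fun h2 => h1 ⟨_, h2, fun x hx => hx.1.2⟩)

/-- the same for a representation of the subgroup on a finite dimensional space -/
theorem finite_of_not_vind' {V : Type*} [AddCommGroup V] [Module ℂ V] [FiniteDimensional ℂ V]
    {K : Subgroup G} {ρ : G → End ℂ V} (hρ : RepOn K ρ) (hK : Amen K) (hfg : K.FG)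
    (h : ¬VInd K) : ∃ K', FI K' K ∧ ∀ x ∈ K', ρ x = 1 := by
  classical
  have : Group.FG K := (Group.fg_iff_subgroup_fg K).2 hfg
  let e := LinearMap.toMatrixAlgEquiv (Module.finBasis ℂ V)
  let ρ' : K →* Matrix _ _ ℂ :=
    { toFun := fun x => e (ρ x)
      map_one' := by rw [Subgroup.coe_one, hρ.one, map_one]
      map_mul' := fun x y => by rw [Subgroup.coe_mul, hρ.mul _ x.2 _ y.2, map_mul] }
  have htop : (⊤ : Subgroup K).map K.subtype = K := by
    rw [← MonoidHom.range_eq_map, Subgroup.range_subtype]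
  obtain ⟨K', h1, h2⟩ := finite_of_not_vind ρ' (amen_top_iff.2 hK) (Group.fg_def.1 this) (by
    rintro ⟨L, h1, b, h2, x, hx, h3⟩
    refine h ⟨L.map K.subtype, by have := h1.map K.subtype; rwa [htop] at this,
      fun g => if hg : g ∈ K then b ⟨g, hg⟩ else 0, ?_, x, ⟨x, hx, rfl⟩, by simpa using h3⟩
    rintro _ ⟨y, hy, rfl⟩ _ ⟨z, hz, rfl⟩
    have h5 : ∀ w : K, (if hg : (w : G) ∈ K then b ⟨w, hg⟩ else 0) = b w := fun w => dif_pos w.2
    exact (h5 (y * z)).trans ((h2 y hy z hz).trans (congrArg₂ (· + ·) (h5 y) (h5 z)).symm))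
  refine ⟨K'.map K.subtype, by have := h1.map K.subtype; rwa [htop] at this, ?_⟩
  rintro _ ⟨x, hx, rfl⟩
  exact e.injective ((h2 x hx).trans (map_one e).symm)

section ND

variable [TopologicalSpace G] [IsTopologicalGroup G]

/-- finite index subgroups of a group generated by small elements are generated by small
elements -/
theorem le_closure_of_fi {K K' : Subgroup G} (hK' : FI K' K)
    (hgen : ∀ U ∈ 𝓝 (1 : G), K ≤ Subgroup.closure (U ∩ K)) {U : Set G} (hU : U ∈ 𝓝 (1 : G)) :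
    K' ≤ Subgroup.closure (U ∩ K') := by
  have h1 : ∀ H : Subgroup K, (H : Set K) ∈ 𝓝 (1 : K) → H = ⊤ := fun H hH => by
    obtain ⟨V, hV, h1⟩ := (mem_nhds_subtype _ _ _).1 hH
    refine eq_top_iff.2 fun x _ => ?_
    have h2 : Subgroup.closure (V ∩ K) ≤ H.map K.subtype := (Subgroup.closure_le _).2
      fun y hy => ⟨⟨y, hy.2⟩, h1 hy.1, rfl⟩
    obtain ⟨y, hy, h3⟩ := h2 (hgen V hV x.2)
    rwa [← show y = x from Subtype.ext h3]
  have := hK'.subgroupOf
  have : (K'.subgroupOf K).topologicalClosure.FiniteIndex :=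
    Subgroup.finiteIndex_of_le (Subgroup.le_topologicalClosure _)
  have h2 : Dense (K'.subgroupOf K : Set K) := by
    have h2 := h1 _ (((K'.subgroupOf K).topologicalClosure.isOpen_of_isClosed_of_finiteIndex
      (Subgroup.isClosed_topologicalClosure _)).mem_nhds (Subgroup.one_mem _))
    intro x
    have h3 : x ∈ (K'.subgroupOf K).topologicalClosure := h2 ▸ Subgroup.mem_top x
    exact h3
  let L := (Subgroup.closure (U ∩ K')).subgroupOf K
  have hU' : Subtype.val ⁻¹' U ∈ 𝓝 (1 : K) := continuous_subtype_val.continuousAt hU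
  have h3 : L.topologicalClosure = ⊤ := by
    refine h1 _ (mem_of_superset (interior_mem_nhds.2 hU') ?_)
    refine (h2.open_subset_closure_inter isOpen_interior).trans (closure_mono fun x hx => ?_)
    have h := interior_subset hx.1
    exact Subgroup.subset_closure (k := U ∩ K') ⟨h, hx.2⟩
  intro x hx
  have h4 : (⟨x, hK'.le hx⟩ : K) ∈ closure (L : Set K) := by
    have h4 : (⟨x, hK'.le hx⟩ : K) ∈ L.topologicalClosure := h3 ▸ Subgroup.mem_top _
    exact h4
  have h5 : (fun y : K => y⁻¹ * ⟨x, hK'.le hx⟩) ⁻¹' (Subtype.val ⁻¹' U) ∈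
      𝓝 (⟨x, hK'.le hx⟩ : K) :=
    (continuous_inv.mul continuous_const).continuousAt (by simpa using hU')
  obtain ⟨y, h6, h7⟩ := mem_closure_iff_nhds.1 h4 _ h5
  have h7' : (y : G) ∈ Subgroup.closure (U ∩ K') := h7
  have h8 : (y : G) ∈ K' := (Subgroup.closure_le K').2 Set.inter_subset_right h7'
  have h9 : (y : G)⁻¹ * x ∈ Subgroup.closure (U ∩ K') :=
    Subgroup.subset_closure ⟨h6, K'.mul_mem (K'.inv_mem h8) hx⟩
  simpa using Subgroup.mul_mem _ h7' h9

/-- **TITS-ND**: weak overlap for small elements forces virtually solvable image -/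
theorem vsr_of_small [Group.FG G] [(𝓝 (1 : G)).IsCountablyGenerated] (ρ : G →* Matrix ι ι ℂ)
    {K : Subgroup G} (hgen : ∀ U ∈ 𝓝 (1 : G), K ≤ Subgroup.closure (U ∩ K))
    (hρ : Tendsto ρ (𝓝 1) (𝓝 1)) {c0 : ℝ} (hc0 : 0 < c0) {U0 : Set G} (hU0 : U0 ∈ 𝓝 (1 : G))
    (hW : WO c0 U0) : VSr K ρ := by
  classical
  rcases struct_mat ρ K with h | ⟨K', hK', d, hd, Λ, h1, h2, h3⟩
  · exact h
  exfalso
  obtain ⟨U, hU⟩ := (𝓝 (1 : G)).exists_antitone_basis
  have h4 : Tendsto (fun g => Λ (ρ g)) (𝓝 1) (𝓝 1) := by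
    have h4 := (Λ.continuous_of_finiteDimensional.tendsto 1).comp hρ
    have h5 : Λ (ρ 1) = 1 := h1.one
    rw [map_one] at h5
    rw [h5] at h4
    exact h4
  obtain ⟨f, hf1, hf2⟩ := exists_seq_of_forall_finset_exists
    (fun x : G × ℕ => x.1 ∈ U x.2 ∧ x.1 ∈ K' ∧ x.1 ∉ scal h1)
    (fun x y => x.2 < y.2 ∧ ∀ c : ℂ, Λ (ρ y.1) ≠ c • Λ (ρ x.1)) fun s hs => by
      have h5 : ∀ᶠ g in 𝓝 (1 : G), ∀ x ∈ s, Λ (ρ g) ∉ Submodule.span ℂ {Λ (ρ x.1)} := by
        refine (eventually_all_finset _).2 fun x hx =>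
          h4.eventually (p := fun M => M ∉ Submodule.span ℂ {Λ (ρ x.1)}) ?_
        refine (Submodule.closed_of_finiteDimensional _).isOpen_compl.mem_nhds fun h5 => ?_
        obtain ⟨c, hc⟩ := Submodule.mem_span_singleton.1 h5
        refine (hs x hx).2.2 ?_
        simpa using (scal h1).inv_mem (mem_scal h1 K'.one_mem (hs x hx).2.1 (h1.one.trans hc.symm))
      let m := s.sup Prod.snd + 1
      obtain ⟨g, ⟨hg1, hg2⟩, hg3⟩ : ∃ g ∈ (U m ∩ {g | ∀ x ∈ s,
          Λ (ρ g) ∉ Submodule.span ℂ {Λ (ρ x.1)}}) ∩ K', g ∉ scal h1 := by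
        by_contra h6
        push Not at h6
        refine not_fi_scal hd h1 h2 ((FI.refl K').of_le ?_ fun _ h => h.1)
        exact (le_closure_of_fi hK' hgen (inter_mem (hU.mem m) h5)).trans
          ((Subgroup.closure_le _).2 h6)
      refine ⟨(g, m), ⟨hg1.1, hg2, hg3⟩, fun x hx =>
        ⟨Nat.lt_succ_of_le (Finset.le_sup (f := Prod.snd) hx), fun c hc => ?_⟩⟩
      exact hg1.2 x hx (Submodule.mem_span_singleton.2 ⟨c, hc.symm⟩)
  have h5 : Tendsto (fun k => (f k).1) atTop (𝓝 1) := by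
    have h5 : StrictMono fun k => (f k).2 := fun k l h => (hf2 k l h).1
    exact hU.tendsto fun k => hU.antitone (h5.id_le k) (hf1 k).1
  obtain ⟨Γ, -, h6⟩ := fur h1 h2 h3 (fun k => (f k).1) (fun k => (hf1 k).2.1) (fun k l hkl c h => by
    rcases lt_or_gt_of_ne hkl with h6 | h6
    · by_cases hc : c = 0
      · exact (hf1 k).2.2 ⟨(hf1 k).2.1, 0, h.trans (by rw [hc, zero_smul, zero_smul])⟩
      · exact (hf2 k l h6).2 c⁻¹ (by rw [h, smul_smul, inv_mul_cancel₀ hc, one_smul])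
    · exact (hf2 l k h6).2 c h) hc0
  have h7 : ∀ᶠ k in atTop, ∀ γ ∈ Γ, γ⁻¹ * (f k).1 * γ ∈ U0 :=
    (eventually_all_finset _).2 fun γ _ => by
      have h7 := (h5.const_mul γ⁻¹).mul_const γ
      rw [mul_one, inv_mul_cancel] at h7
      exact h7.eventually hU0
  obtain ⟨k, hk1, hk2⟩ := (h6.and_eventually h7).exists
  obtain ⟨p, hp, h8⟩ := hW (Γ.image fun γ => γ⁻¹ * (f k).1 * γ) fun g hg => by
    obtain ⟨γ, hγ, rfl⟩ := Finset.mem_image.1 hg
    exact hk2 γ hγ
  obtain ⟨γ, hγ, h9⟩ := hk1 p hp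
  exact absurd (h8 _ (Finset.mem_image_of_mem _ hγ)) (not_le.2 h9)

end ND

end Crest.Agent.X261.Grp
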