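import Crest.Agent.X261.Grp.IGa
import Crest.Agent.X261.Grp.Tits

/-!
# Row 261, package IG (helper85), part B: the Lie algebra, the adjoint representation, the theorem
-/

set_option autoImplicit false

noncomputable section

namespace Crest.Agent.X261.Grp

open Filter Topology Set Crest.Agent.R189

variable {G : Type*} [Group G] {E : Type*} [NormedAddCommGroup E] [NormedSpace ℝ E]

namespace NG

variable (J : NG G E)

/-- the ultrafilter -/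
abbrev UF : Filter ℕ := hyperfilter ℕ

theorem UF_le : UF ≤ atTop := Nat.hyperfilter_le_atTop

theorem rinv_UF : Tendsto (fun k : ℕ => ((k : ℝ) + 1)⁻¹) UF (𝓝 0) := tendsto_rinv.mono_left UF_le

theorem rinv_ev {ε : ℝ} (hε : 0 < ε) : ∀ᶠ k : ℕ in UF, ((k : ℝ) + 1)⁻¹ ≤ ε :=
  rinv_UF.eventually (ge_mem_nhds hε)

/-- `ξ` is the tangent vector of the sequence `s` -/
def Rel (s : ℕ → G) (ξ : E) : Prop :=
  (∀ᶠ k in UF, s k ∈ J.S) ∧ Tendsto (fun k : ℕ => ((k : ℝ) + 1) • J.v (s k)) UF (𝓝 ξ)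

variable {J}

theorem norm_r (k : ℕ) (x : E) : ‖((k : ℝ) + 1) • x‖ = ((k : ℝ) + 1) * ‖x‖ := by
  rw [norm_smul, Real.norm_of_nonneg (by positivity)]

namespace Rel

variable {s s' : ℕ → G} {ξ ξ' : E}

theorem norm (h : J.Rel s ξ) : Tendsto (fun k : ℕ => ((k : ℝ) + 1) * ‖J.v (s k)‖) UF (𝓝 ‖ξ‖) := by
  simpa only [norm_r] using h.2.norm

theorem small (h : J.Rel s ξ) : Tendsto (fun k : ℕ => ‖J.v (s k)‖) UF (𝓝 0) := by
  have h1 := rinv_UF.mul h.norm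
  rw [zero_mul] at h1
  exact h1.congr fun k => inv_mul_cancel_left₀ (by positivity) _

theorem ev (h : J.Rel s ξ) {ε : ℝ} (hε : 0 < ε) : ∀ᶠ k in UF, s k ∈ J.N ε :=
  h.1.and (h.small.eventually (ge_mem_nhds hε))

theorem unique (h : J.Rel s ξ) (h' : J.Rel s ξ') : ξ = ξ' := tendsto_nhds_unique h.2 h'.2

theorem mul (h : J.Rel s ξ) (h' : J.Rel s' ξ') : J.Rel (fun k => s k * s' k) (ξ + ξ') := by
  have h1 := ((h.ev one_pos).and (h'.ev one_pos)).mono fun k hk =>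
    J.mul _ hk.1.1 _ hk.2.1 hk.1.2 hk.2.2
  refine ⟨h1.mono fun k hk => hk.1, (h.2.add h'.2).congr_dist ?_⟩
  have h2 := (h.norm.mul h'.small).const_mul (1 / 8)
  rw [mul_zero, mul_zero] at h2
  refine squeeze_zero' (Eventually.of_forall fun _ => dist_nonneg) (h1.mono fun k hk => ?_) h2
  rw [dist_comm, dist_eq_norm, ← smul_add, ← smul_sub, norm_r, ← sub_sub]
  nlinarith [mul_le_mul_of_nonneg_left hk.2 (by positivity : 0 ≤ (k : ℝ) + 1)]

theorem inv (h : J.Rel s ξ) : J.Rel (fun k => (s k)⁻¹) (-ξ) := by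
  have h1 := (h.ev one_pos).mono fun k hk => J.inv _ hk.1 hk.2
  refine ⟨h1.mono fun k hk => hk.1, h.2.neg.congr_dist ?_⟩
  have h2 := (h.norm.mul h.small).const_mul (1 / 8)
  rw [mul_zero, mul_zero] at h2
  refine squeeze_zero' (Eventually.of_forall fun _ => dist_nonneg) (h1.mono fun k hk => ?_) h2
  rw [dist_comm, dist_eq_norm, sub_neg_eq_add, ← smul_add, norm_r]
  nlinarith [mul_le_mul_of_nonneg_left hk.2 (by positivity : 0 ≤ (k : ℝ) + 1)]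

end Rel

theorem rel_one : J.Rel (fun _ => 1) 0 :=
  ⟨Eventually.of_forall fun _ => J.one_mem, by simp [J.v_one]⟩

variable (J) in
theorem exists_cpt (R : ℝ) : ∃ K : Set E, IsCompact K ∧
    ∀ g ∈ J.N 1, ∀ t : ℝ, 0 ≤ t → t * ‖J.v g‖ ≤ R → t • J.v g ∈ K := by
  obtain ⟨K, hK, h⟩ := J.cpt
  refine ⟨(fun p : ℝ × E => p.1 • p.2) '' Icc 0 R ×ˢ K, (isCompact_Icc.prod hK).image (by fun_prop),
    fun g hg t ht h1 => ⟨(t * ‖J.v g‖, ‖J.v g‖⁻¹ • J.v g), ⟨⟨by positivity, h1⟩, h g hg.1 hg.2⟩, ?_⟩⟩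
  by_cases h2 : J.v g = 0
  · simp [h2]
  · simp only [smul_smul]
    rw [mul_inv_cancel_right₀ (norm_ne_zero_iff.2 h2)]

theorem exists_rel {s : ℕ → G} {R : ℝ}
    (h : ∀ᶠ k in UF, s k ∈ J.S ∧ ((k : ℝ) + 1) * ‖J.v (s k)‖ ≤ R) : ∃ ξ, J.Rel s ξ := by
  obtain ⟨K, hK, h1⟩ := J.exists_cpt R
  obtain ⟨ξ, -, h2⟩ := hK.ultrafilter_le_nhds
    ((hyperfilter ℕ).map fun k : ℕ => ((k : ℝ) + 1) • J.v (s k)) (by
      rw [le_principal_iff, Ultrafilter.coe_map, mem_map]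
      filter_upwards [h, (tendsto_natCast_atTop_atTop.mono_left UF_le).eventually_ge_atTop R]
        with k hk hk'
      refine h1 _ ⟨hk.1, ?_⟩ _ (by positivity) hk.2
      by_contra h3
      nlinarith [not_le.1 h3, hk.2, (Nat.cast_nonneg k : (0 : ℝ) ≤ k)])
  exact ⟨ξ, h.mono fun k hk => hk.1, h2⟩

variable (J) in
theorem exists_conj (z : G) : ∃ L : ℝ, ∀ s ξ, J.Rel s ξ →
    ∃ ξ', J.Rel (fun k => z * s k * z⁻¹) ξ' ∧ ‖ξ'‖ ≤ L * ‖ξ‖ := by
  obtain ⟨L, hL, η, hη, h⟩ := J.lip z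
  refine ⟨L, fun s ξ hs => ?_⟩
  have h1 : ∀ᶠ k in UF, z * s k * z⁻¹ ∈ J.S ∧
      ((k : ℝ) + 1) * ‖J.v (z * s k * z⁻¹)‖ ≤ L * (((k : ℝ) + 1) * ‖J.v (s k)‖) :=
    (hs.ev hη).mono fun k hk => ⟨(h _ hk).1, by
      nlinarith [mul_le_mul_of_nonneg_left (h _ hk).2 (by positivity : 0 ≤ (k : ℝ) + 1)]⟩
  have h2 := hs.norm.const_mul L
  obtain ⟨ξ', h3⟩ := exists_rel (J := J) (s := fun k => z * s k * z⁻¹) (R := L * ‖ξ‖ + 1)
    ((h1.and (h2.eventually (ge_mem_nhds (lt_add_one _)))).mono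
      fun k hk => ⟨hk.1.1, hk.1.2.trans hk.2⟩)
  exact ⟨ξ', h3, le_of_tendsto_of_tendsto h3.norm h2 (h1.mono fun k hk => hk.2)⟩

theorem rel_dir {u : E} (hu : ∀ η > 0, ∃ b ∈ J.N η, 0 < ‖J.v b‖ ∧ ‖‖J.v b‖⁻¹ • J.v b - u‖ ≤ η)
    {t : ℝ} (ht : 0 ≤ t) : ∃ s, J.Rel s (t • u) := by
  choose b hb hb0 hbu using fun k : ℕ => hu (((k : ℝ) + 1)⁻¹ * ((k : ℝ) + 1)⁻¹) (by positivity)
  have h1 : ∀ᶠ k : ℕ in UF, t * ((k : ℝ) + 1)⁻¹ ≤ 1 / 2 := by
    have h1 := rinv_UF.const_mul t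
    rw [mul_zero] at h1
    exact h1.eventually (ge_mem_nhds (by norm_num))
  refine ⟨fun k => b k ^ ⌊t * ((k : ℝ) + 1)⁻¹ / ‖J.v (b k)‖⌋₊, h1.mono fun k hk =>
    (pow_est (hb k).1 _ ((floor_mul (by positivity) (hb0 k)).1.trans hk)).1, ?_⟩
  have h2 := rinv_UF.const_mul (t ^ 2 + 1 + t)
  rw [mul_zero] at h2
  refine tendsto_iff_norm_sub_tendsto_zero.2 (squeeze_zero' (Eventually.of_forall fun _ =>
    norm_nonneg _) (h1.mono fun k hk => ?_) h2)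
  have h3 := approx (hb k).1 (hb0 k) (by positivity) hk
  have h4 := (hb k).2
  have h5 := hbu k
  have hr : (0 : ℝ) < k + 1 := by positivity
  have hr1 : ((k : ℝ) + 1)⁻¹ ≤ 1 := inv_le_one_of_one_le₀ (by simp)
  have hr2 := mul_inv_cancel₀ hr.ne'
  set x := J.v (b k ^ ⌊t * ((k : ℝ) + 1)⁻¹ / ‖J.v (b k)‖⌋₊)
  set d := ‖J.v (b k)‖⁻¹ • J.v (b k)
  have h6 : ((k : ℝ) + 1) • x - t • u =
      ((k : ℝ) + 1) • (x - (t * ((k : ℝ) + 1)⁻¹) • d) + t • (d - u) := by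
    rw [smul_sub, smul_sub, smul_smul, mul_comm t, mul_inv_cancel_left₀ hr.ne']; abel
  rw [h6]
  refine (norm_add_le _ _).trans ?_
  rw [norm_r, norm_smul, Real.norm_of_nonneg ht]
  set q := ((k : ℝ) + 1)⁻¹
  have hq : 0 < q := by positivity
  have h7 : ((k : ℝ) + 1) * ‖x - (t * q) • d‖ ≤ ((k : ℝ) + 1) * ((t * q) ^ 2 + q * q) := by
    gcongr; nlinarith [sq_nonneg (t * q)]
  have h8 : ((k : ℝ) + 1) * ((t * q) ^ 2 + q * q) = (t ^ 2 + 1) * q := by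
    linear_combination (t ^ 2 + 1) * q * hr2
  have h9 : t * ‖d - u‖ ≤ t * q := by gcongr; nlinarith
  linarith

variable (J) in
/-- the Lie algebra -/
def gg : Submodule ℝ E where
  carrier := {ξ | ∃ s, J.Rel s ξ}
  zero_mem' := ⟨_, rel_one⟩
  add_mem' := fun ⟨_, h⟩ ⟨_, h'⟩ => ⟨_, h.mul h'⟩
  smul_mem' := by
    rintro c ξ ⟨s, hs⟩
    by_cases h0 : ξ = 0
    · exact ⟨_, by simpa [h0] using rel_one⟩
    have h1 : 0 < ‖ξ‖ := norm_pos_iff.2 h0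
    obtain ⟨s', h2⟩ := rel_dir (J := J) (u := ‖ξ‖⁻¹ • ξ) (t := |c| * ‖ξ‖) (fun η hη => by
      have h2 := (hs.norm.inv₀ h1.ne').smul hs.2
      obtain ⟨k, ⟨h3, h4⟩, h5⟩ := (((hs.ev hη).and (hs.norm.eventually (lt_mem_nhds h1))).and
        (h2.eventually (Metric.closedBall_mem_nhds _ hη))).exists
      have hr : (0 : ℝ) < k + 1 := by positivity
      refine ⟨s k, h3, (mul_pos_iff_of_pos_left hr).1 h4, ?_⟩
      rwa [dist_eq_norm, smul_smul, mul_inv, mul_comm _ ‖J.v (s k)‖⁻¹,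
        inv_mul_cancel_right₀ hr.ne'] at h5) (by positivity)
    rw [smul_smul, mul_inv_cancel_right₀ h1.ne'] at h2
    rcases abs_cases c with h3 | h3
    · exact ⟨s', by rwa [h3.1] at h2⟩
    · exact ⟨_, by simpa [h3.1] using h2.inv⟩

instance : FiniteDimensional ℝ J.gg := by
  obtain ⟨K, hK, h⟩ := J.exists_cpt 2
  refine .of_totallyBounded_nhds_zero ℝ (Metric.closedBall_mem_nhds 0 one_pos)
    ((totallyBounded_preimage isUniformEmbedding_subtype_val.isUniformInducing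
      hK.totallyBounded).subset fun ξ hξ => ?_)
  obtain ⟨s, hs⟩ := ξ.2
  have h1 : ‖(ξ : E)‖ < 2 := (mem_closedBall_zero_iff.1 hξ).trans_lt one_lt_two
  refine hK.isClosed.mem_of_tendsto hs.2 ?_
  filter_upwards [hs.ev one_pos, hs.norm.eventually (ge_mem_nhds h1)] with k h2 h3
  exact h _ h2 _ (by positivity) h3

theorem exists_ad (z : G) (ξ : J.gg) :
    ∃ ξ' : J.gg, ∀ s, J.Rel s ξ → J.Rel (fun k => z * s k * z⁻¹) ξ' := by
  obtain ⟨L, hL⟩ := J.exists_conj z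
  obtain ⟨s0, h0⟩ := ξ.2
  obtain ⟨ξ', h1, -⟩ := hL s0 ξ h0
  refine ⟨⟨ξ', _, h1⟩, fun s hs => ?_⟩
  obtain ⟨ξ'', h2, h3⟩ := hL _ _ (h0.inv.mul hs)
  rw [neg_add_cancel, norm_zero, mul_zero, norm_le_zero_iff] at h3
  have h4 := h1.mul h2
  rw [h3, add_zero] at h4
  convert h4 using 2
  group

/-- the adjoint action, as a function -/
def ad0 (z : G) (ξ : J.gg) : J.gg := (exists_ad z ξ).choose

theorem Rel.ad0 {s : ℕ → G} {ξ : J.gg} (h : J.Rel s ξ) (z : G) :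
    J.Rel (fun k => z * s k * z⁻¹) (ad0 z ξ : J.gg) := (exists_ad z ξ).choose_spec s h

theorem ad0_add (z : G) (ξ ξ' : J.gg) : ad0 z (ξ + ξ') = ad0 z ξ + ad0 z ξ' := by
  obtain ⟨s, h⟩ := ξ.2
  obtain ⟨s', h'⟩ := ξ'.2
  refine Subtype.ext ((Rel.ad0 (ξ := ξ + ξ') (h.mul h') z).unique ?_)
  have h1 := (h.ad0 z).mul (h'.ad0 z)
  simp only [conj_mul] at h1
  exact h1

variable (J) in
/-- the adjoint representation -/
def ad : G →* Module.End ℝ J.gg where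
  toFun z :=
    { toFun := ad0 z
      map_add' := ad0_add z
      map_smul' := fun c ξ => by
        obtain ⟨L, hL⟩ := J.exists_conj z
        refine map_real_smul (AddMonoidHom.mk' (ad0 z) (ad0_add z))
          (AddMonoidHomClass.continuous_of_bound _ L fun ξ => ?_) c ξ
        obtain ⟨s, h⟩ := ξ.2
        obtain ⟨ξ', h1, h2⟩ := hL s ξ h
        rwa [h1.unique (h.ad0 z)] at h2 }
  map_one' := LinearMap.ext fun ξ => by
    obtain ⟨s, h⟩ := ξ.2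
    exact Subtype.ext ((h.ad0 1).unique (by simpa using h))
  map_mul' a b := LinearMap.ext fun ξ => by
    obtain ⟨s, h⟩ := ξ.2
    refine Subtype.ext ((h.ad0 (a * b)).unique ?_)
    have h1 := (h.ad0 b).ad0 a
    simp only [mul_inv_rev, ← mul_assoc] at h1 ⊢
    exact h1

theorem ad_small {x : G} (hx : x ∈ J.N (1 / 16)) (ξ : J.gg) :
    ‖J.ad x ξ - ξ‖ ≤ ‖J.v x‖ * ‖ξ‖ := by
  obtain ⟨s, h⟩ := ξ.2
  refine le_of_tendsto_of_tendsto ((h.ad0 x).2.sub h.2).norm (h.norm.const_mul ‖J.v x‖)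
    ((h.ev (ε := 1 / 16) (by norm_num)).mono fun k hk => ?_)
  have h1 := (conj_small hx hk).2
  simp only [← smul_sub, norm_r]
  nlinarith [mul_le_mul_of_nonneg_left h1 (by positivity : 0 ≤ (k : ℝ) + 1)]

theorem inf_central {z : G} (hz : J.ad z = 1) : ∀ κ > 0, ∃ η > 0, ∀ b ∈ J.N η,
    z * b * z⁻¹ * b⁻¹ ∈ J.N (κ * ‖J.v b‖) := by
  intro κ hκ
  obtain ⟨L, hL, η, hη, h⟩ := J.lip z
  by_contra h1
  push Not at h1
  choose b hb h1 using fun k : ℕ => h1 (((k : ℝ) + 1)⁻¹ * ((k : ℝ) + 1)⁻¹) (by positivity)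
  have hb0 : ∀ k, 0 < ‖J.v (b k)‖ := fun k => norm_pos_iff.2 fun h2 => h1 k (by
    rw [J.inj _ (hb k).1 h2]
    simpa using one_mem_N (by positivity))
  let m : ℕ → ℕ := fun k => ⌊((k : ℝ) + 1)⁻¹ / ‖J.v (b k)‖⌋₊
  have hm := fun k : ℕ => floor_mul (by positivity : 0 ≤ ((k : ℝ) + 1)⁻¹) (hb0 k)
  obtain ⟨ξ, h2⟩ := exists_rel (J := J) (s := fun k => b k ^ m k) (R := 2)
    ((rinv_ev one_half_pos).mono fun k hk => by
      have h2 := pow_N (hb k).1 (hm k).1 hk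
      refine ⟨h2.1, (mul_le_mul_of_nonneg_left h2.2 (by positivity)).trans (le_of_eq ?_)⟩
      field_simp)
  have h3 := Rel.ad0 (ξ := ⟨ξ, _, h2⟩) h2 z
  rw [show ad0 z ⟨ξ, _, h2⟩ = ⟨ξ, _, h2⟩ from LinearMap.congr_fun hz _] at h3
  have h4 := ((h3.2.sub h2.2).norm.add (rinv_UF.const_mul (L ^ 2 + 1)))
  rw [sub_self, norm_zero, mul_zero, add_zero] at h4
  obtain ⟨k, h5, h6⟩ := ((h4.eventually (gt_mem_nhds (show 0 < κ / 4 by positivity))).and
    (rinv_ev (show 0 < min (min η (1 / 4)) (1 / 4 / L) by positivity))).exists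
  have hr : (0 : ℝ) < k + 1 := by positivity
  have hr2 := mul_inv_cancel₀ hr.ne'
  obtain ⟨hm1, hm2⟩ := hm k
  have h7 := (hb k).2
  have h1 := h1 k
  have h0 := hb0 k
  simp only [← smul_sub, norm_r, ← conj_pow] at h5
  change (m k : ℝ) * _ ≤ _ at hm1
  change _ ≤ (m k : ℝ) * _ at hm2
  set q := ((k : ℝ) + 1)⁻¹
  have hq : 0 < q := by positivity
  have hq1 : q ≤ η := h6.trans ((min_le_left _ _).trans (min_le_left _ _))
  have hq2 : q ≤ 1 / 4 := h6.trans ((min_le_left _ _).trans (min_le_right _ _))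
  have hq3 : q * L ≤ 1 / 4 := (le_div_iff₀ hL).1 (h6.trans (min_le_right _ _))
  have h8 : ‖J.v (b k)‖ ≤ q := by nlinarith
  obtain ⟨h9, h10⟩ := h (b k) ⟨(hb k).1, h8.trans hq1⟩
  obtain ⟨h11, h12⟩ := dist_le (a := z * b k * z⁻¹) (b := b k) ⟨h9, by nlinarith⟩
    ⟨(hb k).1, by linarith⟩
  have h13 : κ * ‖J.v (b k)‖ < 2 * ‖J.v (z * b k * z⁻¹) - J.v (b k)‖ :=
    (not_le.1 fun h13 => h1 ⟨h11, h13⟩).trans_le h12
  have hm0 : (0 : ℝ) ≤ m k := Nat.cast_nonneg _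
  have h14 : m k * ‖J.v (z * b k * z⁻¹)‖ ≤ L * q := by
    nlinarith [mul_le_mul_of_nonneg_left h10 hm0, mul_le_mul_of_nonneg_left hm1 hL.le]
  have h15 := (pow_est (hb k).1 (m k) (by linarith)).2
  have h16 := (pow_est h9 (m k) (by linarith)).2
  have h17 : (m k * ‖J.v (b k)‖) ^ 2 ≤ q ^ 2 := by gcongr
  have h18 : (m k * ‖J.v (z * b k * z⁻¹)‖) ^ 2 ≤ (L * q) ^ 2 := by gcongr
  have h19 : m k * ‖J.v (z * b k * z⁻¹) - J.v (b k)‖ ≤
      ‖J.v ((z * b k * z⁻¹) ^ m k) - J.v (b k ^ m k)‖ + ‖J.v (b k ^ m k) - (m k : ℝ) • J.v (b k)‖ +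
      ‖J.v ((z * b k * z⁻¹) ^ m k) - (m k : ℝ) • J.v (z * b k * z⁻¹)‖ := by
    refine le_trans (le_of_eq ?_) ((norm_sub_le _ _).trans (add_le_add_left (norm_add_le _ _) _))
    rw [← Real.norm_of_nonneg hm0, ← norm_smul, Real.norm_of_nonneg hm0, smul_sub]
    congr 1; abel
  have h20 : κ * (q / 2) ≤ 2 * (m k * ‖J.v (z * b k * z⁻¹) - J.v (b k)‖) := by
    have h20 : q / 2 ≤ m k * ‖J.v (b k)‖ := by nlinarith
    nlinarith [mul_le_mul_of_nonneg_left h13.le hm0, mul_le_mul_of_nonneg_left h20 hκ.le]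
  set D := ‖J.v ((z * b k * z⁻¹) ^ m k) - J.v (b k ^ m k)‖
  have h21 : κ / 4 * q ≤ D + (L ^ 2 + 1) * q ^ 2 := by nlinarith [sq_nonneg q, sq_nonneg (L * q)]
  have h22 := mul_lt_mul_of_pos_right h5 hq
  have h23 : (((k : ℝ) + 1) * D + (L ^ 2 + 1) * q) * q = D + (L ^ 2 + 1) * q ^ 2 := by
    linear_combination D * hr2
  linarith

variable (J) in
/-- the topology of small elements -/
@[reducible] def basis : GroupFilterBasis G where
  sets := range fun n : ℕ => J.N ((n : ℝ) + 1)⁻¹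
  nonempty := range_nonempty _
  inter_sets := by
    rintro _ _ ⟨a, rfl⟩ ⟨b, rfl⟩
    refine ⟨_, ⟨max a b, rfl⟩, subset_inter (N_mono ?_) (N_mono ?_)⟩ <;> gcongr <;> simp
  one' := by
    rintro _ ⟨a, rfl⟩
    exact one_mem_N (by positivity)
  mul' := by
    rintro _ ⟨a, rfl⟩
    have h1 : (((3 * a + 2 : ℕ) : ℝ) + 1)⁻¹ ≤ 1 :=
      inv_le_one_of_one_le₀ (le_add_of_nonneg_left (Nat.cast_nonneg _))
    refine ⟨_, ⟨3 * a + 2, rfl⟩, mul_subset_iff.2 fun x hx y hy =>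
      N_mono (le_of_eq ?_) (mul_N hx hy h1 h1)⟩
    push_cast; field_simp; ring
  inv' := by
    rintro _ ⟨a, rfl⟩
    have h1 : (((2 * a + 1 : ℕ) : ℝ) + 1)⁻¹ ≤ 1 :=
      inv_le_one_of_one_le₀ (le_add_of_nonneg_left (Nat.cast_nonneg _))
    refine ⟨_, ⟨2 * a + 1, rfl⟩, fun x hx => N_mono (le_of_eq ?_) (inv_N hx h1)⟩
    push_cast; field_simp; ring
  conj' := by
    rintro z _ ⟨a, rfl⟩
    obtain ⟨η, hη, h⟩ := J.conj z ((a : ℝ) + 1)⁻¹ (by positivity)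
    obtain ⟨k, hk⟩ := (rinv_ev hη).exists
    exact ⟨_, ⟨k, rfl⟩, fun x hx => h x hx.1 (hx.2.trans hk)⟩

/-- **IG**, normalised form -/
theorem main [Group.FG G] (J : NG G E) {c0 δ : ℝ} (hc0 : 0 < c0) (hδ : 0 < δ)
    (hW : WO c0 (J.N δ)) : ∃ G0 : Subgroup G, G0.Normal ∧ G0 ≠ ⊥ ∧ VS G0 := by
  classical
  obtain ⟨e, he0, he, h⟩ := J.halve
  let := J.basis.topology
  have := J.basis.isTopologicalGroup
  have hB : (𝓝 (1 : G)).HasBasis (fun _ : ℕ => True) fun n => J.N ((n : ℝ) + 1)⁻¹ :=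
    J.basis.nhds_one_hasBasis.to_hasBasis (by rintro _ ⟨n, rfl⟩; exact ⟨n, trivial, subset_rfl⟩)
      fun n _ => ⟨_, ⟨n, rfl⟩, subset_rfl⟩
  have hN : ∀ ε > 0, J.N ε ∈ 𝓝 (1 : G) := fun ε hε => by
    obtain ⟨k, hk⟩ := (rinv_ev hε).exists
    exact mem_of_superset (hB.mem_of_mem (i := k) trivial) (N_mono hk)
  have : (𝓝 (1 : G)).IsCountablyGenerated :=
    (HasCountableBasis.mk hB (Set.to_countable _)).isCountablyGenerated
  set G0 := Subgroup.closure (J.N e)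
  have hgen : ∀ U ∈ 𝓝 (1 : G), G0 ≤ Subgroup.closure (U ∩ G0) := fun U hU => by
    obtain ⟨n, -, hn⟩ := hB.mem_iff.1 hU
    refine (gen h (η := min e ((n : ℝ) + 1)⁻¹) (by positivity)).trans (Subgroup.closure_mono ?_)
    exact fun x hx => ⟨hn (N_mono (min_le_right _ _) hx),
      Subgroup.subset_closure (N_mono (min_le_left _ _) hx)⟩
  let b := Module.finBasis ℝ J.gg
  let ρ : G →* Matrix _ _ ℂ := (Complex.ofRealHom.mapMatrix.toMonoidHom.comp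
    (LinearMap.toMatrixAlgEquiv b).toRingHom.toMonoidHom).comp J.ad
  have hρ : ∀ g i j, ρ g i j = (b.coord i (J.ad g (b j)) : ℝ) := fun g i j => by
    simp [ρ, LinearMap.toMatrixAlgEquiv_apply]
  have hv : Tendsto (fun g => ‖J.v g‖) (𝓝 1) (𝓝 0) :=
    tendsto_order.2 ⟨fun a ha => Eventually.of_forall fun _ => ha.trans_le (norm_nonneg _),
      fun a ha => mem_of_superset (hN (a / 2) (by positivity)) fun x hx =>
        hx.2.trans_lt (half_lt_self ha)⟩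
  have hc : Tendsto ρ (𝓝 1) (𝓝 1) := by
    refine tendsto_pi_nhds.2 fun i => tendsto_pi_nhds.2 fun j => ?_
    rw [← map_one ρ]
    simp only [hρ, map_one, Module.End.one_apply]
    refine (Complex.continuous_ofReal.tendsto _).comp
      (((b.coord i).continuous_of_finiteDimensional.tendsto _).comp ?_)
    have h1 := hv.mul_const ‖b j‖
    rw [zero_mul] at h1
    exact tendsto_iff_norm_sub_tendsto_zero.2 (squeeze_zero' (Eventually.of_forall fun _ =>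
      norm_nonneg _) (mem_of_superset (hN _ (by norm_num)) fun x hx => ad_small hx _) h1)
  obtain ⟨K, hK, n, h1⟩ := vsr_of_small ρ hgen hc hc0 (hN δ hδ) hW
  refine ⟨G0, ⟨fun x hx g => ?_⟩, fun h2 => ?_, K, hK, n + 1, ?_⟩
  · have h2 : (fun x => g * x * g⁻¹) ⁻¹' J.N e ∈ 𝓝 (1 : G) :=
      ((continuous_const.mul continuous_id).mul continuous_const).continuousAt
        (by simpa using hN e he0)
    have h3 : Subgroup.closure ((fun x => g * x * g⁻¹) ⁻¹' J.N e ∩ G0) ≤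
        G0.comap (MulAut.conj g).toMonoidHom :=
      (Subgroup.closure_le _).2 fun y hy => Subgroup.subset_closure hy.1
    exact h3 (hgen _ h2 hx)
  · obtain ⟨g, hg, h3, h4⟩ := J.nd e he0
    exact h3 (Subgroup.mem_bot.1 (h2 ▸ Subgroup.subset_closure ⟨hg, h4⟩))
  · refine Subgroup.commutator_le.2 fun x hx y hy => Subgroup.mem_bot.2 ?_
    rw [commutatorElement_eq_one_iff_mul_comm]
    refine cent he h he0 (inf_central ?_) y (hK.le (dser_le _ _ hy))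
    refine (LinearMap.toMatrixAlgEquiv b).injective (Matrix.ext fun i j =>
      Complex.ofReal_injective ?_)
    have h2 : ρ x i j = ρ 1 i j := by rw [h1 x hx, map_one]
    rw [hρ, hρ, map_one] at h2
    simpa [LinearMap.toMatrixAlgEquiv_apply] using h2

end NG

variable [Group.FG G]

/-- **IG**: infinitesimal data with weak overlap on small elements give a nontrivial virtually
solvable normal subgroup -/
theorem ig_main (I : Loc.IG G E) {c0 δ : ℝ} (hc0 : 0 < c0) (hδ : 0 < δ)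
    (hW : WO c0 {g | g ∈ I.S ∧ ‖I.v g‖ < δ}) :
    ∃ G0 : Subgroup G, G0.Normal ∧ G0 ≠ ⊥ ∧ VS G0 := by
  obtain ⟨J, μ, hμ, h1, h2⟩ := exists_ng I
  refine J.main hc0 (δ := δ / μ / 2) (by positivity) (hW.mono fun g hg => ⟨h1 ▸ hg.1, ?_⟩)
  rw [h2]
  calc μ * ‖J.v g‖ ≤ μ * (δ / μ / 2) := by gcongr; exact hg.2
    _ = δ / 2 := by field_simp
    _ < δ := half_lt_self hδ

omit [Group.FG G] in
/-- **IG**, case A: the group is amenable -/
theorem JN.amen_of_ig (hG : JN G) (I : Loc.IG G E) {c0 δ : ℝ} (hc0 : 0 < c0) (hδ : 0 < δ)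
    (hW : WO c0 {g | g ∈ I.S ∧ ‖I.v g‖ < δ}) : Amen G := by
  have := hG.fg
  obtain ⟨G0, h1, h2, h3⟩ := ig_main I hc0 hδ hW
  by_contra h
  exact h2 (hG.eq_bot_of_amen h h1 h3.amen)

omit [Group.FG G] in
/-- in a just non VA group with a nontrivial VS normal subgroup every infinite finitely generated
subgroup is virtually indicable -/
theorem JN.vind_of_vs (hG : JN G) {G0 : Subgroup G} (h1 : G0.Normal) (h2 : G0 ≠ ⊥)
    (h3 : VS G0) {K : Subgroup G} (hK : K.FG) [Infinite K] : VInd K := by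
  obtain ⟨H, hH, h4⟩ := hG.quot G0 h1 h2
  have h5 : FI (H ⊓ K) K := (FI.of_finiteIndex H).inf_right le_top
  by_cases h6 : FI ⁅H ⊓ K, H ⊓ K⁆ (H ⊓ K)
  · have h7 : ⁅H ⊓ K, H ⊓ K⁆ ≤ G0 := Subgroup.commutator_le.2 fun a ha b hb => h4 a ha.1 b hb.1
    exact ((h3.mono h7).of_fi (h6.trans h5)).vind hK
  · exact (vind_of_not_fi (h5.fg hK) h6).of_fi h5

omit [Group.FG G] in
/-- **IG**, case B -/
theorem JN.vind_of_ig (hG : JN G) (I : Loc.IG G E) {c0 δ : ℝ} (hc0 : 0 < c0) (hδ : 0 < δ)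
    (hW : WO c0 {g | g ∈ I.S ∧ ‖I.v g‖ < δ}) {K : Subgroup G} (hK : K.FG) [Infinite K] :
    VInd K := by
  have := hG.fg
  obtain ⟨G0, h1, h2, h3⟩ := ig_main I hc0 hδ hW
  exact hG.vind_of_vs h1 h2 h3 hK

omit [Group.FG G] in
/-- **IG**, case B for an amenable group: no overlap hypothesis is needed -/
theorem JN.vind_of_ig_amen (hG : JN G) (hA : Amen G) (I : Loc.IG G E) {K : Subgroup G}
    (hK : K.FG) [Infinite K] : VInd K :=
  hG.vind_of_ig I one_pos one_pos ((wo_of_amen (amen_top_iff.2 hA)).mono fun _ _ => trivial) hK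

end Crest.Agent.X261.Grp
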