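import Crest.Agent.X261.Grp.Tits

/-!
# Row 261, package GRP (helper39): weak overlap implies amenability (Kesten)

* `amen_of_wo : 0 < c0 → WO c0 N → Amen N`.
-/

set_option autoImplicit false

noncomputable section

namespace Crest.Agent.X261.Grp

namespace WR

open Crest.Agent.R189
open scoped Pointwise RealInnerProductSpace

section abs

variable {G V : Type*} [Group G] [NormedAddCommGroup V] [InnerProductSpace ℝ V]
  (π : G →* V →ₗ[ℝ] V) (S : Finset G)

/-- the lazy averaging operator -/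
def avg : V →ₗ[ℝ] V := (2 * S.card : ℝ)⁻¹ • ∑ s ∈ S, (π s + 1)

theorem avg_apply (v : V) : avg π S v = (2 * S.card : ℝ)⁻¹ • ∑ s ∈ S, (π s v + v) := by
  simp [avg, LinearMap.sum_apply]

variable {π S}

theorem le_inner_avg [DecidableEq G] (hS : S.Nonempty) {ξ : V} {c : ℝ} (j : ℕ) :
    ∀ i : ℕ, (∀ g ∈ insert 1 S ^ (i + j), c ≤ ⟪π g ξ, ξ⟫) →
      ∀ g ∈ insert 1 S ^ i, c ≤ ⟪π g ((avg π S ^ j) ξ), ξ⟫ := by
  induction j with
  | zero => exact fun i h => by simpa using h
  | succ j ih =>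
    intro i h g hg
    have h1 := ih (i + 1) (by rwa [add_right_comm, add_assoc])
    have hm : (0 : ℝ) < 2 * S.card := by have := hS.card_pos; positivity
    rw [pow_succ', Module.End.mul_apply, avg_apply, map_smul, map_sum, real_inner_smul_left,
      sum_inner, le_inv_mul_iff₀ hm, mul_comm (2 : ℝ), mul_assoc, ← nsmul_eq_mul]
    refine Finset.card_nsmul_le_sum _ _ _ fun s hs => ?_
    rw [map_add, inner_add_left, ← Module.End.mul_apply, ← map_mul, two_mul]
    refine add_le_add (h1 _ ?_) (mul_one g ▸ h1 _ ?_)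
    · exact pow_succ (insert 1 S) i ▸ Finset.mul_mem_mul hg (Finset.mem_insert_of_mem hs)
    · exact pow_succ (insert 1 S) i ▸ Finset.mul_mem_mul hg (Finset.mem_insert_self _ _)

theorem exists_lt_avg {T : V →ₗ[ℝ] V} {ξ : V} (h1 : ‖ξ‖ = 1) {θ : ℝ} (h0 : 0 ≤ θ) {k : ℕ}
    (h : θ ^ k < ⟪(T ^ k) ξ, ξ⟫) : ∃ η, θ * ‖η‖ < ‖T η‖ := by
  by_contra h2
  push Not at h2
  have h3 : ∀ j, ‖(T ^ j) ξ‖ ≤ θ ^ j := by
    intro j
    induction j with
    | zero => simp [h1]
    | succ j ih =>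
      rw [pow_succ', Module.End.mul_apply, pow_succ']
      exact (h2 _).trans (mul_le_mul_of_nonneg_left ih h0)
  have h4 := real_inner_le_norm ((T ^ k) ξ) ξ
  rw [h1, mul_one] at h4
  exact absurd (h.trans_le (h4.trans (h3 k))) (lt_irrefl _)

theorem norm_sub_lt (hπ : ∀ g v, ‖π g v‖ = ‖v‖) {η : V} {δ : ℝ} (hδ : δ ≤ 2) {s : G} (hs : s ∈ S)
    (h : (1 - δ / (2 * S.card)) * ‖η‖ < ‖avg π S η‖) : ‖π s η - η‖ ^ 2 ≤ 4 * δ * ‖η‖ ^ 2 := by
  have hm : (0 : ℝ) < 2 * S.card := by have := Finset.card_pos.2 ⟨s, hs⟩; positivity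
  rw [avg_apply, norm_smul, Real.norm_of_nonneg (inv_pos.2 hm).le, lt_inv_mul_iff₀ hm] at h
  have h1 := Finset.single_le_sum (f := fun t => 2 * ‖η‖ - ‖π t η + η‖)
    (fun t _ => by have := norm_add_le (π t η) η; rw [hπ] at this; linarith) hs
  rw [Finset.sum_sub_distrib, Finset.sum_const, nsmul_eq_mul] at h1
  have h2 := norm_sum_le S fun t => π t η + η
  have h3 : 2 * S.card * ((1 - δ / (2 * S.card)) * ‖η‖) = S.card * (2 * ‖η‖) - δ * ‖η‖ := by
    rw [← mul_assoc, mul_sub, mul_div_cancel₀ _ hm.ne']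
    ring
  have h4 : (2 - δ) * ‖η‖ ≤ ‖π s η + η‖ := by linarith
  have h5 := parallelogram_law_with_norm ℝ (π s η) η
  rw [hπ] at h5
  have h6 := pow_le_pow_left₀ (mul_nonneg (sub_nonneg.2 hδ) (norm_nonneg η)) h4 2
  nlinarith [sq_nonneg (δ * ‖η‖)]

/-- almost invariant vectors -/
theorem exists_almost (hπ : ∀ g v, ‖π g v‖ = ‖v‖) {K : Subgroup G} {c : ℝ} (hc : 0 < c)
    (h : ∀ F : Finset G, (∀ g ∈ F, g ∈ K) → ∃ ξ : V, ‖ξ‖ = 1 ∧ ∀ g ∈ F, c ≤ ⟪π g ξ, ξ⟫)
    (hS : ∀ s ∈ S, s ∈ K) {δ : ℝ} (h0 : 0 < δ) (hδ : δ ≤ 2) :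
    ∃ η : V, ‖η‖ = 1 ∧ ∀ s ∈ S, ‖π s η - η‖ ^ 2 ≤ 4 * δ := by
  classical
  rcases S.eq_empty_or_nonempty with rfl | hne
  · obtain ⟨ξ, h1, -⟩ := h ∅ (by simp)
    exact ⟨ξ, h1, by simp⟩
  have hm : (1 : ℝ) ≤ S.card := by exact_mod_cast hne.card_pos
  have h1 : 0 ≤ 1 - δ / (2 * S.card) := by
    rw [sub_nonneg, div_le_one (by positivity)]
    linarith
  have h2 : 1 - δ / (2 * S.card) < 1 := sub_lt_self _ (by positivity)
  obtain ⟨k, hk⟩ := exists_pow_lt_of_lt_one hc h2
  have h3 : ∀ j, ∀ g ∈ insert 1 S ^ j, g ∈ K := by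
    intro j
    induction j with
    | zero => simp
    | succ j ih =>
      intro g hg
      obtain ⟨a, ha, b, hb, rfl⟩ := Finset.mem_mul.1 (pow_succ (insert 1 S) j ▸ hg)
      refine mul_mem (ih a ha) ?_
      rcases Finset.mem_insert.1 hb with rfl | hb
      exacts [one_mem _, hS b hb]
  obtain ⟨ξ, h4, h5⟩ := h _ (h3 (0 + k))
  have h6 := le_inner_avg hne k 0 h5 1 (by simp)
  rw [map_one, Module.End.one_apply] at h6
  obtain ⟨η, h7⟩ := exists_lt_avg h4 h1 (hk.trans_le h6)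
  have h8 : 0 < ‖η‖ := norm_pos_iff.2 (by rintro rfl; simp at h7)
  refine ⟨‖η‖⁻¹ • η, norm_smul_inv_norm (𝕜 := ℝ) (norm_pos_iff.1 h8), fun s hs => ?_⟩
  rw [map_smul, ← smul_sub, norm_smul, mul_pow, norm_inv, norm_norm, inv_pow,
    inv_mul_le_iff₀ (by positivity), mul_comm]
  exact norm_sub_lt hπ hδ hs h7

end abs

/-- finitely supported functions with the `ℓ²` norm -/
def L2 (G : Type*) : Type _ := G →₀ ℝ

variable {G : Type*}

instance : AddCommGroup (L2 G) := inferInstanceAs (AddCommGroup (G →₀ ℝ))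

instance : Module ℝ (L2 G) := inferInstanceAs (Module ℝ (G →₀ ℝ))

/-- the scalar product -/
def ip (p q : G →₀ ℝ) : ℝ := p.sum fun s a => a * q s

theorem ip_eq {p : G →₀ ℝ} (q : G →₀ ℝ) {F : Finset G} (h : p.support ⊆ F) :
    ip p q = ∑ s ∈ F, p s * q s :=
  Finsupp.sum_of_support_subset p h _ fun _ _ => zero_mul _

theorem ip_comm (p q : G →₀ ℝ) : ip p q = ip q p := by
  classical
  rw [ip_eq q (Finset.subset_union_left (s₂ := q.support)),
    ip_eq p (Finset.subset_union_right (s₁ := p.support))]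
  simp only [mul_comm]

theorem ip_smul (r : ℝ) (p q : G →₀ ℝ) : ip (r • p) q = r * ip p q := by
  rw [ip_eq q Finsupp.support_smul, ip_eq q subset_rfl, Finset.mul_sum]
  simp only [Finsupp.smul_apply, smul_eq_mul, mul_assoc]

theorem ip_definite (p : G →₀ ℝ) (h : ip p p = 0) : p = 0 := by
  refine Finsupp.ext fun s => ?_
  by_contra h1
  exact h1 (mul_self_eq_zero.1 ((Finset.sum_eq_zero_iff_of_nonneg
    fun _ _ => mul_self_nonneg _).1 h s (Finsupp.mem_support_iff.2 h1)))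

/-- the scalar product as a structure -/
@[reducible] def core (G : Type*) : InnerProductSpace.Core ℝ (L2 G) where
  inner := ip
  conj_inner_symm p q := ip_comm q p
  re_inner_nonneg _ := Finset.sum_nonneg fun _ _ => mul_self_nonneg _
  add_left _ _ _ := Finsupp.sum_add_index' (fun _ => zero_mul _) fun _ _ _ => add_mul _ _ _
  smul_left p q r := ip_smul r p q
  definite := ip_definite

instance : NormedAddCommGroup (L2 G) :=
  @InnerProductSpace.Core.toNormedAddCommGroup ℝ _ _ _ _ (core G)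

instance : InnerProductSpace ℝ (L2 G) := InnerProductSpace.ofCore (core G).toCore

/-- the identity -/
def toL : (G →₀ ℝ) ≃ₗ[ℝ] L2 G := LinearEquiv.refl ℝ (G →₀ ℝ)

theorem inner_toL (p q : G →₀ ℝ) : ⟪toL p, toL q⟫ = ip p q := rfl

theorem norm_toL {p q : G →₀ ℝ} (h : ip p p = ip q q) : ‖toL p‖ = ‖toL q‖ := by
  rw [← sq_eq_sq₀ (norm_nonneg _) (norm_nonneg _), ← real_inner_self_eq_norm_sq,
    ← real_inner_self_eq_norm_sq, inner_toL, inner_toL, h]

theorem norm_toL_one {p : G →₀ ℝ} : ‖toL p‖ = 1 ↔ ip p p = 1 := by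
  rw [← inner_toL, real_inner_self_eq_norm_sq, ← sq_eq_sq₀ (norm_nonneg _) zero_le_one, one_pow]

variable [Group G]

theorem tr_apply (g : G) (p : G →₀ ℝ) (s : G) : p.mapDomain (fun x => g * x) s = p (g⁻¹ * s) := by
  conv_lhs => rw [← mul_inv_cancel_left g s]
  exact Finsupp.mapDomain_apply (mul_right_injective g) p _

/-- the regular representation -/
def reg₀ (G : Type*) [Group G] : G →* (G →₀ ℝ) →ₗ[ℝ] (G →₀ ℝ) where
  toFun g := Finsupp.lmapDomain ℝ ℝ fun x => g * x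
  map_one' := LinearMap.ext fun p => Finsupp.ext fun s => (tr_apply 1 p s).trans (by simp)
  map_mul' g h := LinearMap.ext fun p => Finsupp.ext fun s => (tr_apply _ p s).trans
    ((tr_apply g _ s).trans ((tr_apply h p _).trans (by rw [mul_inv_rev, mul_assoc]))).symm

/-- the regular representation -/
def reg (G : Type*) [Group G] : G →* L2 G →ₗ[ℝ] L2 G := reg₀ G

theorem reg_toL (g : G) (p : G →₀ ℝ) : reg G g (toL p) = toL (p.mapDomain fun x => g * x) := rfl

theorem norm_reg (g : G) (p : L2 G) : ‖reg G g p‖ = ‖p‖ := by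
  obtain ⟨p, rfl⟩ := toL.surjective p
  rw [reg_toL]
  refine norm_toL ((Finsupp.sum_mapDomain_index_inj (mul_right_injective g)).trans
    (Finset.sum_congr rfl fun s _ => ?_))
  simp only [tr_apply, inv_mul_cancel_left]

theorem overlap {p : G →₀ ℝ} (hp : IsProb p) :
    ∃ ξ : L2 G, ‖ξ‖ = 1 ∧ ∀ g, 1 - l1 (p.mapDomain (fun x => g * x) - p) / 2 ≤ ⟪reg G g ξ, ξ⟫ := by
  classical
  refine ⟨toL (p.mapRange Real.sqrt Real.sqrt_zero), ?_, fun g => ?_⟩
  · rw [norm_toL_one, ip_eq _ Finsupp.support_mapRange, ← hp.mass]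
    exact Finset.sum_congr rfl fun s _ => Real.mul_self_sqrt (hp.nonneg s)
  · set q := p.mapDomain fun x => g * x with hq
    have h1 : IsProb q := hp.map _
    have h2 := (mass_eq (Finset.subset_union_left (s₂ := p.support))).symm.trans h1.mass
    have h3 := (mass_eq (Finset.subset_union_right (s₁ := q.support))).symm.trans hp.mass
    have h9 : (1 : ℝ) = (∑ s ∈ q.support ∪ p.support, (q s + p s)) / 2 := by
      rw [Finset.sum_add_distrib, h2, h3]
      norm_num
    rw [real_inner_comm, reg_toL, inner_toL,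
      ip_eq _ (Finsupp.support_mapRange.trans (Finset.subset_union_right (s₁ := q.support))),
      l1_eq Finsupp.support_sub, h9, ← sub_div, ← Finset.sum_sub_distrib, Finset.sum_div]
    refine Finset.sum_le_sum fun s _ => ?_
    have h4 : p (g⁻¹ * s) = q s := (tr_apply g p s).symm
    rw [tr_apply g (p.mapRange _ _), Finsupp.mapRange_apply, Finsupp.mapRange_apply,
      Finsupp.sub_apply, h4]
    have h5 := Real.mul_self_sqrt (hp.nonneg s)
    have h6 := Real.mul_self_sqrt (h1.nonneg s)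
    have h7 := Real.sqrt_nonneg (p s)
    have h8 := Real.sqrt_nonneg (q s)
    rcases le_total (p s) (q s) with h | h
    · rw [abs_of_nonneg (sub_nonneg.2 h)]
      nlinarith [Real.sqrt_le_sqrt h]
    · rw [abs_of_nonpos (sub_nonpos.2 h)]
      nlinarith [Real.sqrt_le_sqrt h]

theorem sq_prob {η : L2 G} (h : ‖η‖ = 1) : ∃ p, IsProb p ∧
    ∀ g, l1 (p.mapDomain (fun x => g * x) - p) ≤ 2 * ‖reg G g η - η‖ := by
  classical
  obtain ⟨η, rfl⟩ := toL.surjective η
  refine ⟨η.mapRange (fun a => a * a) (mul_zero 0), ⟨fun s => mul_self_nonneg _, ?_⟩,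
    fun g => ?_⟩
  · rw [mass_eq Finsupp.support_mapRange, ← norm_toL_one.1 h]
    rfl
  · set a : G →₀ ℝ := η.mapDomain (fun x => g * x) - η with ha
    set b : G →₀ ℝ := η.mapDomain (fun x => g * x) + η with hb
    have h1 : ∀ s, ((η.mapRange (fun a => a * a) (mul_zero 0)).mapDomain (fun x => g * x) -
        η.mapRange (fun a => a * a) (mul_zero 0) : G →₀ ℝ) s = a s * b s := by
      intro s
      simp only [ha, hb, Finsupp.sub_apply, Finsupp.add_apply, tr_apply, Finsupp.mapRange_apply]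
      ring
    have h2 : ∀ c : G →₀ ℝ, ‖toL (c.mapRange abs abs_zero)‖ = ‖toL c‖ := fun c => norm_toL (by
      rw [ip_eq _ Finsupp.support_mapRange, ip_eq _ subset_rfl]
      exact Finset.sum_congr rfl fun s _ => abs_mul_abs_self _)
    have h3 := real_inner_le_norm (toL (a.mapRange abs abs_zero)) (toL (b.mapRange abs abs_zero))
    rw [h2, h2, inner_toL, ip_eq _ Finsupp.support_mapRange] at h3
    have h4 : ‖toL b‖ ≤ 2 := by
      rw [hb, map_add, ← reg_toL]
      exact (norm_add_le _ _).trans (by rw [norm_reg, h]; norm_num)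
    rw [l1_eq (F := a.support) fun s hs => Finsupp.mem_support_iff.2
      (left_ne_zero_of_mul (h1 s ▸ Finsupp.mem_support_iff.1 hs)), mul_comm, reg_toL, ← map_sub]
    refine le_trans (le_of_eq (Finset.sum_congr rfl fun s _ => ?_))
      (h3.trans (mul_le_mul_of_nonneg_left h4 (norm_nonneg _)))
    rw [h1, abs_mul]
    rfl

end WR

open Crest.Agent.R189 WR

/-- **weak overlap implies amenability** -/
theorem amen_of_wo {G : Type*} [Group G] {K : Subgroup G} {c0 : ℝ} (hc : 0 < c0)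
    (h : WO c0 (K : Set G)) : Amen K := by
  classical
  refine amen_of_rt K fun F ε hε => ?_
  obtain ⟨η, h1, h2⟩ := exists_almost (π := reg G) (S := F.image Subtype.val) norm_reg (K := K)
    (half_pos hc) (fun F' hF => by
      obtain ⟨p, hp, h3⟩ := h F' hF
      obtain ⟨ξ, h4, h5⟩ := overlap hp
      exact ⟨ξ, h4, fun g hg => le_trans (by linarith [h3 g hg]) (h5 g)⟩)
    (fun s hs => by obtain ⟨a, -, rfl⟩ := Finset.mem_image.1 hs; exact a.2)
    (δ := min 2 ((ε / 8) ^ 2)) (by positivity) (min_le_left _ _)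
  obtain ⟨p, hp, h3⟩ := sq_prob h1
  refine ⟨p, hp, fun g hg => (h3 g).trans_lt ?_⟩
  have h4 := (h2 g (Finset.mem_image_of_mem _ hg)).trans
    (mul_le_mul_of_nonneg_left (min_le_right _ _) (by norm_num))
  have h5 : ‖reg G g η - η‖ ≤ ε / 4 := (pow_le_pow_iff_left₀ (norm_nonneg _) (by positivity)
    two_ne_zero).1 (h4.trans_eq (by ring))
  linarith

end Crest.Agent.X261.Grp
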