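import Crest.Agent.X277.Rou.Kron

/-!
# Row 261, package GRP (helper85): an infinite subset of a finitely generated subring of `ℂ` is
unbounded for some absolute value of `ℂ`
-/

set_option autoImplicit false

noncomputable section

namespace Crest.Agent.X261.Grp.BG

open Crest.Agent.X277.Rou MvPolynomial Cardinal Filter
open scoped NNReal

/-- bounded for every absolute value of `ℂ` -/
def Bd (S : Set ℂ) : Prop := ∀ v : AbsoluteValue ℂ ℝ, ∃ C, ∀ s ∈ S, v s ≤ C

/-- the usual absolute value twisted by an automorphism -/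
def tw (v : AbsoluteValue ℂ ℝ) (σ : ℂ ≃+* ℂ) : AbsoluteValue ℂ ℝ :=
  v.comp (f := σ.toRingHom) σ.injective

theorem tw_apply (v : AbsoluteValue ℂ ℝ) (σ : ℂ ≃+* ℂ) (x : ℂ) : tw v σ x = v (σ x) := rfl

/-- the `p`-adic valuation of `ℚ` -/
def pv (p : Nat.Primes) : Valuation ℚ ℝ≥0 :=
  haveI := Fact.mk p.2
  (NormedField.valuation (K := ℚ_[p.1])).comap (Rat.castHom ℚ_[p.1])

theorem pv_le_one (p : Nat.Primes) {q : ℚ} (h : ¬p.1 ∣ q.den) : pv p q ≤ 1 := by
  have := Fact.mk p.2
  exact_mod_cast Padic.norm_rat_le_one (p := p.1) h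

theorem pv_nat_lt_one (p : Nat.Primes) {n : ℕ} (h : p.1 ∣ n) : pv p n < 1 := by
  have := Fact.mk p.2
  have h1 : ‖((n : ℚ) : ℚ_[p.1])‖ < 1 := by
    rw [Rat.cast_natCast]
    exact Padic.norm_natCast_lt_one_iff.2 h
  exact_mod_cast h1

theorem one_lt_pv (p : Nat.Primes) {q : ℚ} (h : p.1 ∣ q.den) : 1 < pv p q := by
  have := Fact.mk p.2
  have h2 := pv_nat_lt_one p h
  have h3 : ¬pv p q.num < 1 := fun h3 => by
    have h3' : ‖((q.num : ℚ) : ℚ_[p.1])‖ < 1 := by exact_mod_cast h3
    rw [Rat.cast_intCast] at h3'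
    have h4 := Int.natCast_dvd.1 (Padic.norm_intCast_lt_one_iff.1 h3')
    exact p.2.one_lt.ne' (Nat.eq_one_of_dvd_coprimes q.reduced h4 h)
  by_contra h5
  refine h3 ?_
  rw [← Rat.mul_den_eq_num q, map_mul]
  exact mul_lt_one_of_nonneg_of_lt_one_right (not_lt.1 h5) zero_le h2

theorem pv_nontriv (p : Nat.Primes) : ∃ x, 1 < pv p x :=
  ⟨(p.1 : ℚ)⁻¹, one_lt_pv p (by rw [Rat.inv_natCast_den_of_pos p.2.pos])⟩

theorem ev_pv (q : ℚ) : ∀ᶠ p in cofinite, pv p q ≤ 1 := by
  refine Set.Finite.subset (Set.Finite.preimage (f := fun p : Nat.Primes => p.1)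
    Subtype.val_injective.injOn (Set.finite_Iic q.den)) fun p hp => ?_
  by_contra h
  exact hp (pv_le_one p fun h1 => h (Nat.le_of_dvd q.den_pos h1))

theorem finite_rat (Q : Set ℚ) (h0 : ∃ C : ℝ, ∀ q ∈ Q, |(q : ℝ)| ≤ C)
    (h1 : ∀ p, ∃ C : ℝ, ∀ q ∈ Q, (pv p q : ℝ) ≤ C) (h2 : ∀ᶠ p in cofinite, ∀ q ∈ Q, pv p q ≤ 1) :
    Q.Finite := by
  classical
  obtain ⟨C, hC⟩ := h0
  set E := (Filter.eventually_cofinite.1 h2).toFinset with hE
  set N : ℕ := ∏ p ∈ E, p.1 with hN
  have hN0 : 0 < N := Finset.prod_pos fun p _ => p.2.pos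
  have h3 : ∀ᶠ k : ℕ in atTop, ∀ p ∈ E, ∀ q ∈ Q, pv p ((N : ℚ) ^ k * q) ≤ 1 := by
    rw [Filter.eventually_all_finset]
    intro p hp
    obtain ⟨D, hD⟩ := h1 p
    have h4 : (pv p N : ℝ) < 1 := by
      exact_mod_cast pv_nat_lt_one p (Finset.dvd_prod_of_mem _ hp)
    have h5 : Tendsto (fun k : ℕ => (pv p N : ℝ) ^ k * D) atTop (nhds (0 * D)) :=
      (tendsto_pow_atTop_nhds_zero_of_lt_one (NNReal.coe_nonneg _) h4).mul_const D
    rw [zero_mul] at h5
    filter_upwards [h5.eventually_lt_const one_pos] with k hk q hq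
    rw [map_mul, map_pow, ← NNReal.coe_le_coe, NNReal.coe_mul, NNReal.coe_pow, NNReal.coe_one]
    exact (mul_le_mul_of_nonneg_left (hD q hq) (by positivity)).trans hk.le
  obtain ⟨k, hk⟩ := h3.exists
  have h4 : ∀ q ∈ Q, ((N : ℚ) ^ k * q).den = 1 := by
    intro q hq
    by_contra h5
    obtain ⟨p, hp, hpd⟩ := Nat.exists_prime_and_dvd h5
    let p' : Nat.Primes := ⟨p, hp⟩
    refine absurd (one_lt_pv p' hpd) (not_lt.2 ?_)
    by_cases h6 : p' ∈ E
    · exact hk _ h6 q hq
    · rw [hE, Set.Finite.mem_toFinset, Set.mem_ofPred_eq, not_not] at h6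
      rw [map_mul, map_pow]
      exact mul_le_one' (pow_le_one' (val_natCast_le _ N) k) (h6 q hq)
  have hNk : ((N : ℚ) ^ k) ≠ 0 := by positivity
  refine Set.Finite.of_injOn (f := fun q => ((N : ℚ) ^ k * q).num)
    (t := Set.Icc (-⌈(N : ℝ) ^ k * C⌉) ⌈(N : ℝ) ^ k * C⌉) (fun q hq => ?_) ?_ (Set.finite_Icc _ _)
  · have h5 : ((((N : ℚ) ^ k * q).num : ℚ) : ℝ) = (N : ℝ) ^ k * q := by
      rw [(Rat.den_eq_one_iff _).1 (h4 q hq)]
      push_cast
      rfl
    rw [Set.mem_Icc, ← abs_le, ← Int.cast_le (R := ℝ), Int.cast_abs]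
    rw [Rat.cast_intCast] at h5
    rw [h5, abs_mul, abs_of_nonneg (by positivity)]
    exact (mul_le_mul_of_nonneg_left (hC q hq) (by positivity)).trans (Int.le_ceil _)
  · intro q hq q' hq' h5
    have h6 : (((N : ℚ) ^ k * q).num : ℚ) = ((N : ℚ) ^ k * q').num := congrArg Int.cast h5
    rw [(Rat.den_eq_one_iff _).1 (h4 q hq), (Rat.den_eq_one_iff _).1 (h4 q' hq')] at h6
    exact mul_left_cancel₀ hNk h6

variable {s : ℕ}

local notation "P" => MvPolynomial (Fin s) ℚ

theorem countable_P : Countable P :=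
  Cardinal.mk_le_aleph0_iff.1 (MvPolynomial.cardinalMk_le_max.trans (by simp))

/-- a real valuation with trivial support extends along an embedding into `ℂ` -/
theorem exists_ext (j : P →+* ℂ) (hj : Function.Injective j) (w : Valuation P ℝ≥0)
    (h0 : ∀ c, w c = 0 → c = 0) (h1 : ∃ c, 1 < w c) :
    ∃ W : Valuation ℂ ℝ≥0, ∀ c, W (j c) = w c := by
  have h : nonZeroDivisors P ≤ w.supp.primeCompl := fun c hc h =>
    nonZeroDivisors.ne_zero hc (h0 c h)
  let _ : Algebra (FractionRing P) ℂ := (IsFractionRing.lift (K := FractionRing P) hj).toAlgebra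
  have h2 := fun c => Valuation.extendToLocalization_apply_map_apply w h (FractionRing P) c
  obtain ⟨c, hc⟩ := h1
  obtain ⟨W, hW⟩ := exists_extension (K := ℂ) (w.extendToLocalization h (FractionRing P))
    ⟨_, by rw [h2]; exact hc⟩
  refine ⟨W, fun c => ?_⟩
  rw [← h2, ← hW]
  exact congrArg W (IsFractionRing.lift_algebraMap hj c).symm

open Classical in
/-- the degree valuation -/
def dv (s : ℕ) : Valuation (MvPolynomial (Fin s) ℚ) ℝ≥0 where
  toFun c := if c = 0 then 0 else 2 ^ c.totalDegree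
  map_zero' := by simp
  map_one' := by simp
  map_mul' c d := by
    by_cases hc : c = 0
    · simp [hc]
    by_cases hd : d = 0
    · simp [hd]
    simp only [hc, hd, mul_ne_zero hc hd, if_false, totalDegree_mul_of_isDomain hc hd, pow_add]
  map_add_le_max' c d := by
    by_cases hc : c = 0
    · simp [hc]
    by_cases hd : d = 0
    · simp [hd]
    simp only [hc, hd, if_false]
    split_ifs
    · exact zero_le
    · rcases le_max_iff.1 (totalDegree_add c d) with h | h
      · exact le_max_of_le_left (pow_le_pow_right₀ one_le_two h)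
      · exact le_max_of_le_right (pow_le_pow_right₀ one_le_two h)

theorem dv_of_ne {c : P} (hc : c ≠ 0) : dv s c = 2 ^ c.totalDegree := if_neg hc

theorem deg_bdd (j : P →+* ℂ) (hj : Function.Injective j) {Z : Set P} (hZ : Bd (j '' Z)) :
    ∃ D : ℕ, ∀ c ∈ Z, c.totalDegree ≤ D := by
  by_cases h : ∃ c : P, 0 < c.totalDegree
  · obtain ⟨c0, hc0⟩ := h
    have h1 : c0 ≠ 0 := by rintro rfl; simp at hc0
    obtain ⟨W, hW⟩ := exists_ext j hj (dv s) (fun c hc => by
      by_contra h2
      rw [dv_of_ne h2] at hc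
      exact absurd hc (by positivity)) ⟨c0, by
      rw [dv_of_ne h1]; exact one_lt_pow₀ _root_.one_lt_two hc0.ne'⟩
    obtain ⟨C, hC⟩ := hZ (absOf W)
    refine ⟨⌈C⌉₊, fun c hc => ?_⟩
    by_cases h2 : c = 0
    · simp [h2]
    have h3 := hC _ ⟨c, hc, rfl⟩
    rw [absOf_apply, hW, dv_of_ne h2] at h3
    have h4 : (c.totalDegree : ℝ) ≤ 2 ^ c.totalDegree := by
      exact_mod_cast c.totalDegree.lt_two_pow_self.le
    push_cast at h3
    exact_mod_cast (h4.trans h3).trans (Nat.le_ceil C)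
  · push Not at h
    exact ⟨0, fun c _ => h c⟩

/-- shift of the variables -/
def sh (n : Fin s → ℤ) : P →ₐ[ℚ] P := aeval fun i => X i + C (n i : ℚ)

theorem sh_injective (n : Fin s → ℤ) : Function.Injective (sh n) := by
  have : (sh (-n)).comp (sh n) = AlgHom.id ℚ P := by
    ext i
    simp [sh]
  exact Function.LeftInverse.injective (g := sh (-n)) fun c => congrArg (fun f => f c) this

theorem totalDegree_le_of_support_subset' (f : ℚ →+* ℂ) (c : P) :
    (map f c).totalDegree ≤ c.totalDegree :=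
  Finset.sup_mono (support_map_subset f c)

theorem coeff_bdd (j : P →+* ℂ) (hj : Function.Injective j) {Z : Set P} (hZ : Bd (j '' Z))
    (m : Fin s →₀ ℕ) : ∃ C : ℝ, ∀ c ∈ Z, |((coeff m c : ℚ) : ℝ)| ≤ C := by
  obtain ⟨D, hD⟩ := deg_bdd j hj hZ
  let W := restrictTotalDegree (Fin s) ℂ D
  let ι : Z → W := fun c => ⟨map (algebraMap ℚ ℂ) c.1, (mem_restrictTotalDegree _ _ _).2
    ((totalDegree_le_of_support_subset' _ _).trans (hD c c.2))⟩
  let x : Fin s → ℂ := fun i => j (X i)
  let ev : (Fin s → ℤ) → W →ₗ[ℂ] ℂ := fun n =>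
    (aeval (fun i => x i + n i) : MvPolynomial (Fin s) ℂ →ₐ[ℂ] ℂ).toLinearMap.comp W.subtype
  have h1 : Submodule.span ℂ (Set.range ev) = ⊤ := by
    refine Submodule.span_eq_top_of_ne_zero fun z hz => ?_
    by_contra h2
    push Not at h2
    refine hz (Subtype.ext (funext_set (fun i => Set.range fun n : ℤ => x i + n) (fun i => ?_) ?_))
    · exact Set.infinite_range_of_injective fun a b hab => by simpa using hab
    · intro y hy
      choose n hn using fun i => hy i (Set.mem_univ i)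
      have h3 := h2 _ ⟨n, rfl⟩
      rw [show y = fun i => x i + n i from funext fun i => (hn i).symm]
      simpa [ev, coe_aeval_eq_eval] using h3
  have h2 : ∀ f ∈ Submodule.span ℂ (Set.range ev), ∃ C : ℝ, ∀ c, ‖f (ι c)‖ ≤ C := by
    intro f hf
    induction hf using Submodule.span_induction with
    | mem f hf =>
      obtain ⟨n, rfl⟩ := hf
      have := countable_P (s := s)
      obtain ⟨σ, hσ⟩ := exists_equiv_ext (K := ℂ) (L := ℂ) (by simp [aleph0_lt_continuum]) rfl j
        (j.comp (sh n).toRingHom) hj (hj.comp (sh_injective n))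
      obtain ⟨C, hC⟩ := hZ (tw (IsAbsoluteValue.toAbsoluteValue (norm : ℂ → ℝ)) σ)
      refine ⟨C, fun c => ?_⟩
      have h3 := hC _ ⟨c.1, c.2, rfl⟩
      rw [tw_apply, hσ] at h3
      have h4 : (eval₂Hom (algebraMap ℚ ℂ) fun i => x i + n i) = j.comp (sh n).toRingHom := by
        refine ringHom_ext (fun q => ?_) fun i => ?_
        · exact congrArg (fun f : ℚ →+* ℂ => f q) (Subsingleton.elim
            ((eval₂Hom (algebraMap ℚ ℂ) fun i => x i + n i).comp MvPolynomial.C)
            ((j.comp (sh n).toRingHom).comp MvPolynomial.C))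
        · simp [sh, x]
      have h5 : ev n (ι c) = (j.comp (sh n).toRingHom) c.1 := by
        rw [← h4]
        simp [ev, ι, eval_map]
      rw [h5]
      exact h3
    | zero => exact ⟨0, by simp⟩
    | add f g _ _ hf hg =>
      obtain ⟨C, hC⟩ := hf
      obtain ⟨C', hC'⟩ := hg
      exact ⟨C + C', fun c => (norm_add_le _ _).trans (add_le_add (hC c) (hC' c))⟩
    | smul a f _ hf =>
      obtain ⟨C, hC⟩ := hf
      refine ⟨‖a‖ * C, fun c => ?_⟩
      rw [LinearMap.smul_apply, norm_smul]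
      exact mul_le_mul_of_nonneg_left (hC c) (norm_nonneg _)
  obtain ⟨C, hC⟩ := h2 ((lcoeff ℂ m).comp W.subtype) (h1 ▸ Submodule.mem_top)
  refine ⟨C, fun c hc => ?_⟩
  have h3 := hC ⟨c, hc⟩
  simpa [ι, coeff_map] using h3

theorem finite_poly (j : P →+* ℂ) (hj : Function.Injective j) {Z : Set P} (hZ : Bd (j '' Z))
    (h2 : ∀ᶠ p in cofinite, ∀ W : Valuation ℂ ℝ≥0, (∀ c, W (j c) = gv (pv p) c) →
      ∀ c ∈ Z, W (j c) ≤ 1) : Z.Finite := by
  obtain ⟨D, hD⟩ := deg_bdd j hj hZ
  have h3 : ∀ p, ∃ W : Valuation ℂ ℝ≥0, ∀ c, W (j c) = gv (pv p) c := fun p => by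
    obtain ⟨x, hx⟩ := pv_nontriv p
    exact exists_ext j hj (gauss (pv p) (Fin s)) (fun c => gv_eq_zero _)
      ⟨C x, by rwa [← gv_C (ι := Fin s)] at hx⟩
  have h4 : ∀ m, (coeff m '' Z).Finite := fun m => by
    refine finite_rat _ ?_ (fun p => ?_) ?_
    · obtain ⟨C, hC⟩ := coeff_bdd j hj hZ m
      exact ⟨C, by rintro _ ⟨c, hc, rfl⟩; exact hC c hc⟩
    · obtain ⟨W, hW⟩ := h3 p
      obtain ⟨C, hC⟩ := hZ (absOf W)
      refine ⟨C, ?_⟩
      rintro _ ⟨c, hc, rfl⟩
      have h5 := hC _ ⟨c, hc, rfl⟩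
      rw [absOf_apply, hW] at h5
      exact le_trans (by exact_mod_cast le_gv (pv p) c m) h5
    · filter_upwards [h2] with p hp
      rintro _ ⟨c, hc, rfl⟩
      obtain ⟨W, hW⟩ := h3 p
      exact (le_gv (pv p) c m).trans (hW c ▸ hp W hW c hc)
  have h5 := Finsupp.finite_of_degree_le (σ := Fin s) D
  have : Finite {m : Fin s →₀ ℕ | m.degree ≤ D} := h5
  refine Set.Finite.of_injOn (f := fun c (m : {m : Fin s →₀ ℕ | m.degree ≤ D}) => coeff m.1 c)
    ?_ ?_ (Set.Finite.pi' fun m => h4 m.1)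
  · exact fun c hc m => ⟨c, hc, rfl⟩
  intro c hc d hd h
  ext m
  by_cases hm : m.degree ≤ D
  · exact congrFun h ⟨m, hm⟩
  · have h6 : ∀ e ∈ Z, coeff m e = 0 := fun e he => by
      by_contra h7
      exact hm ((le_totalDegree (mem_support_iff.2 h7)).trans (hD e he))
    rw [h6 c hc, h6 d hd]

theorem ev_gv (c : P) : ∀ᶠ p in cofinite, gv (pv p) c ≤ 1 := by
  have h : ∀ᶠ p in cofinite, ∀ m ∈ c.support, pv p (coeff m c) ≤ 1 :=
    (Filter.eventually_all_finset _).2 fun m _ => ev_pv _
  filter_upwards [h] with p hp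
  exact Finset.sup_le hp

/-- **Breuillard-Gelander lemma** -/
theorem finite_of_bd (T : Finset ℂ) {S : Set ℂ} (hS : S ⊆ Subring.closure (T : Set ℂ))
    (hb : Bd S) : S.Finite := by
  classical
  let B := Algebra.adjoin ℚ (T : Set ℂ)
  have : Algebra.FiniteType ℚ B := (Subalgebra.fg_iff_finiteType _).1 ⟨T, rfl⟩
  obtain ⟨s, g, hg, hgi⟩ := exists_integral_inj_algHom_of_fg ℚ B
  let j : MvPolynomial (Fin s) ℚ →+* ℂ := B.val.toRingHom.comp g.toRingHom
  have hj : Function.Injective j := Subtype.val_injective.comp hg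
  let F := FractionRing (MvPolynomial (Fin s) ℚ)
  let _ : Algebra (MvPolynomial (Fin s) ℚ) ℂ := j.toAlgebra
  let _ : Algebra F ℂ := (IsFractionRing.lift (K := F) hj).toAlgebra
  have hst : IsScalarTower (MvPolynomial (Fin s) ℚ) F ℂ :=
    IsScalarTower.of_algebraMap_eq fun c => (IsFractionRing.lift_algebraMap hj c).symm
  have hT : ∀ t ∈ T, IsIntegral (MvPolynomial (Fin s) ℚ) t := fun t ht => by
    obtain ⟨f, hf, h1⟩ := hgi ⟨t, Algebra.subset_adjoin ht⟩
    refine ⟨f, hf, ?_⟩
    have h2 := congrArg B.val.toRingHom h1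
    rwa [Polynomial.hom_eval₂, map_zero] at h2
  have hA : ∀ x ∈ Subring.closure (T : Set ℂ), IsIntegral (MvPolynomial (Fin s) ℚ) x :=
    fun x hx => (Subring.closure_le (t := (integralClosure (MvPolynomial (Fin s) ℚ) ℂ).toSubring)).2
      hT hx
  let K := IntermediateField.adjoin F (T : Set ℂ)
  have : FiniteDimensional F K :=
    IntermediateField.finiteDimensional_adjoin fun t ht => (hT t ht).tower_top
  have hAK : ∀ x ∈ Subring.closure (T : Set ℂ), x ∈ K := fun x hx =>
    (Subring.closure_le (t := K.toSubalgebra.toSubring)).2 (IntermediateField.subset_adjoin F _) hx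
  let U : Set K := {b | (b : ℂ) ∈ Subring.closure (T : Set ℂ)}
  have hU : Submodule.span F U = ⊤ := by
    apply Submodule.map_injective_of_injective (f := K.val.toLinearMap) Subtype.val_injective
    rw [Submodule.map_span, Submodule.map_top]
    refine le_antisymm (Submodule.span_le.2 (Set.image_subset_range _ _)) ?_
    rintro _ ⟨x, rfl⟩
    have h1 : (x : ℂ) ∈ (Algebra.adjoin F (T : Set ℂ)).toSubmodule := by
      rw [← IntermediateField.adjoin_toSubalgebra_of_isAlgebraic
        fun t ht => ((hT t ht).tower_top (A := F)).isAlgebraic]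
      exact x.2
    rw [Algebra.adjoin_eq_span] at h1
    refine Submodule.span_mono (fun y hy => ?_) h1
    have h2 : y ∈ Subring.closure (T : Set ℂ) :=
      (Submonoid.closure_le (S := (Subring.closure (T : Set ℂ)).toSubmonoid)).2
        Subring.subset_closure hy
    exact ⟨⟨y, hAK y h2⟩, h2, rfl⟩
  obtain ⟨B0, hB0, hB1⟩ := (Submodule.fg_span_iff_fg_span_finset_subset (R := F) U).1
    (IsNoetherian.noetherian _)
  rw [hU] at hB1
  have hc : ∀ x : K, x ∈ U → ∃ c : MvPolynomial (Fin s) ℚ,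
      algebraMap _ F c = Algebra.trace F K x := fun x hx =>
    IsIntegrallyClosed.isIntegral_iff.1 (Algebra.isIntegral_trace
      ((isIntegral_algHom_iff (K.val.restrictScalars _) Subtype.val_injective).1 (hA x hx)))
  choose! c hc using hc
  have hcj : ∀ x ∈ U, j (c x) = ∑ σ : K →ₐ[F] ℂ, σ x := fun x hx => by
    rw [← trace_eq_sum_embeddings, ← hc x hx, ← IsScalarTower.algebraMap_apply]
    rfl
  have hcF : Countable F := by
    have := countable_P (s := s)
    exact Cardinal.mk_le_aleph0_iff.1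
      ((IsLocalization.cardinalMk_le (nonZeroDivisors (MvPolynomial (Fin s) ℚ))).trans
        Cardinal.mk_le_aleph0)
  have hcK : Countable K := Cardinal.mk_le_aleph0_iff.1
    ((Algebra.IsAlgebraic.cardinalMk_le_max F K).trans (by simp))
  have hσ : ∀ σ : K →ₐ[F] ℂ, ∃ τ : ℂ ≃+* ℂ, ∀ x : K, τ x = σ x := fun σ =>
    exists_equiv_ext (K := ℂ) (L := ℂ) (by simp [aleph0_lt_continuum]) rfl K.val.toRingHom
      σ.toRingHom Subtype.val_injective σ.toRingHom.injective
  choose τ hτ using hσ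
  let ι : S → K := fun x => ⟨x, hAK _ (hS x.2)⟩
  have hι : ∀ (x : S), ∀ b ∈ B0, ι x * b ∈ U := fun x b hb' =>
    Subring.mul_mem _ (hS x.2) (hB0 hb')
  have hfin : ∀ b ∈ B0, (Set.range fun x : S => c (ι x * b)).Finite := fun b hb' => by
    refine finite_poly j hj (fun v => ?_) ?_
    · choose C hC using fun σ : K →ₐ[F] ℂ => hb (tw v (τ σ))
      refine ⟨∑ σ, C σ * v (σ b), ?_⟩
      rintro _ ⟨_, ⟨x, rfl⟩, rfl⟩
      rw [hcj _ (hι x b hb')]
      refine (v.sum_le _ _).trans (Finset.sum_le_sum fun σ _ => ?_)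
      rw [map_mul, map_mul]
      refine mul_le_mul_of_nonneg_right ?_ (v.nonneg _)
      rw [← hτ]
      exact hC σ x x.2
    · choose! f hf using hT
      have h1 : ∀ᶠ p in cofinite, ∀ t ∈ T, ∀ i ∈ (f t).support, gv (pv p) ((f t).coeff i) ≤ 1 :=
        (Filter.eventually_all_finset _).2 fun t _ =>
          (Filter.eventually_all_finset _).2 fun i _ => ev_gv _
      filter_upwards [h1] with p hp W hW
      rintro _ ⟨x, rfl⟩
      rw [hcj _ (hι x b hb')]
      refine W.map_sum_le fun σ _ => ?_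
      have h2 : Subring.closure (T : Set ℂ) ≤ W.integer.comap (τ σ).toRingHom := by
        refine Subring.closure_le.2 fun t ht => ?_
        have h3 : (f t).map j ∈ Polynomial.lifts W.integer.subtype := by
          rw [Polynomial.lifts_iff_coeff_lifts]
          intro i
          rw [Polynomial.coeff_map]
          refine ⟨⟨j ((f t).coeff i), ?_⟩, rfl⟩
          rw [Valuation.mem_integer_iff, hW]
          by_cases hi : i ∈ (f t).support
          · exact hp t ht i hi
          · rw [Polynomial.notMem_support_iff.1 hi]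
            exact gv_le _ (by simp)
        obtain ⟨Q, hQ, -, hm⟩ := Polynomial.lifts_and_degree_eq_and_monic h3 ((hf t ht).1.map j)
        refine Valuation.Integers.mem_of_integral (Valuation.integer.integers W) ⟨Q, hm, ?_⟩
        have h4 : (τ σ).toRingHom.comp j = j := by
          refine RingHom.ext fun c => ?_
          have h5 := hτ σ (algebraMap F K (algebraMap _ F c))
          rw [σ.commutes] at h5
          have h6 : algebraMap F ℂ (algebraMap _ F c) = j c :=
            (IsScalarTower.algebraMap_apply _ F ℂ c).symm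
          rw [h6] at h5
          rw [← h5]
          exact congrArg (τ σ) h6.symm
        have h5 := congrArg (τ σ).toRingHom (hf t ht).2
        rw [Polynomial.hom_eval₂, map_zero] at h5
        rw [← Polynomial.eval_map]
        change Polynomial.eval _ (Q.map W.integer.subtype) = 0
        rw [hQ, Polynomial.eval_map, ← h4]
        exact h5
      rw [← hτ]
      exact h2 (hι x b hb')
  have : Finite S := by
    have h1 : (Set.univ : Set S).Finite := by
      refine Set.Finite.of_injOn (f := fun x (b : B0) => c (ι x * b)) ?_ ?_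
        (Set.Finite.pi' fun b : B0 => hfin b b.2)
      · exact fun x _ b => ⟨x, rfl⟩
      intro x _ y _ h
      have h2 : ι x - ι y = 0 := by
        refine (traceForm_nondegenerate F K).1 _ fun z => ?_
        have h3 : z ∈ Submodule.span F (B0 : Set K) := hB1 ▸ Submodule.mem_top
        induction h3 using Submodule.span_induction with
        | mem b hb' =>
          rw [Algebra.traceForm_apply, sub_mul, map_sub, ← hc _ (hι x b hb'),
            ← hc _ (hι y b hb'), sub_eq_zero]
          exact congrArg _ (congrFun h ⟨b, hb'⟩)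
        | zero => simp
        | add a b _ _ ha hb' => rw [map_add, ha, hb', add_zero]
        | smul a b _ hb' => rw [map_smul, hb', smul_zero]
      have h3 := congrArg Subtype.val (sub_eq_zero.1 h2)
      exact Subtype.ext h3
    exact Set.finite_univ_iff.1 h1
  exact Set.toFinite S

end Crest.Agent.X261.Grp.BG
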