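import Crest.Agent.X261.Grp.GP
import Crest.Agent.X261.Grp.BG

/-!
# Row 261, package GRP (helper85): the Furstenberg lemma
-/

set_option autoImplicit false

noncomputable section

namespace Crest.Agent.X261.Grp

open Matrix Filter Topology Crest.Agent.R189

/-! ### integration against finitely supported functions -/

section lc

variable {S : Type*}

/-- the integral of `f` against `p` -/
def lc (f : S → ℝ) (p : S →₀ ℝ) : ℝ := Finsupp.linearCombination ℝ f p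

theorem lc_eq (f : S → ℝ) (p : S →₀ ℝ) : lc f p = ∑ s ∈ p.support, p s * f s := by
  simp [lc, Finsupp.linearCombination_apply, Finsupp.sum]

theorem lc_mono {f g : S → ℝ} {p : S →₀ ℝ} (hp : IsProb p) (h : ∀ s, f s ≤ g s) :
    lc f p ≤ lc g p := by
  rw [lc_eq, lc_eq]
  exact Finset.sum_le_sum fun s _ => mul_le_mul_of_nonneg_left (h s) (hp.nonneg s)

theorem lc_const {p : S →₀ ℝ} (hp : IsProb p) (c : ℝ) : lc (fun _ => c) p = c := by
  rw [lc_eq, ← Finset.sum_mul, ← mass_eq (Finset.Subset.refl _), hp.mass, one_mul]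

theorem lc_add (f g : S → ℝ) (p : S →₀ ℝ) : lc (fun s => f s + g s) p = lc f p + lc g p := by
  simp only [lc_eq, mul_add, Finset.sum_add_distrib]

theorem lc_sum {ι : Type*} (J : Finset ι) (f : ι → S → ℝ) (p : S →₀ ℝ) :
    lc (fun s => ∑ i ∈ J, f i s) p = ∑ i ∈ J, lc (f i) p := by
  simp only [lc_eq, Finset.mul_sum]
  exact Finset.sum_comm

theorem abs_lc_le {f : S → ℝ} (h : ∀ s, |f s| ≤ 1) (q : S →₀ ℝ) : |lc f q| ≤ l1 q := by
  rw [lc_eq, l1_eq (Finset.Subset.refl _)]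
  refine (Finset.abs_sum_le_sum_abs _ _).trans (Finset.sum_le_sum fun s _ => ?_)
  rw [abs_mul]
  exact mul_le_of_le_one_right (abs_nonneg _) (h s)

theorem lc_map (f : S → ℝ) (b : S → S) (p : S →₀ ℝ) :
    lc f (p.mapDomain b) = lc (fun s => f (b s)) p :=
  Finsupp.linearCombination_mapDomain _ _ _

theorem lc_sub (f : S → ℝ) (p q : S →₀ ℝ) : lc f (p - q) = lc f p - lc f q := map_sub _ _ _

open Classical in
/-- ping-pong inequality for probabilities -/
theorem pingpong {p : S →₀ ℝ} (hp : IsProb p) {b : S → S} {A B : S → Prop}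
    (h : ∀ s, ¬A s → B (b s)) :
    1 - l1 (p.mapDomain b - p) / 2 ≤
      lc (fun s => if A s then 1 else 0) p + lc (fun s => if B s then 1 else 0) p := by
  have h1 := abs_lc_le (f := fun s => (if B s then 1 else 0) + ((if B s then 1 else 0) + -1))
    (fun s => by split_ifs <;> norm_num) (p.mapDomain b - p)
  rw [lc_sub, lc_map, lc_add, lc_add, lc_add, lc_add, lc_const hp] at h1
  have h2 := lc_mono hp (f := fun _ => 1)
    (g := fun s => (if A s then 1 else 0) + if B (b s) then 1 else 0) fun s => by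
      by_cases hs : A s
      · simp only [hs, if_true]; split_ifs <;> norm_num
      · simp [hs, h s hs]
  rw [lc_const hp, lc_add] at h2
  linarith [(abs_le.1 h1).2]

end lc

namespace Fur

variable (v : AbsoluteValue ℂ ℝ)

/-- bounded sequences -/
def BS : Subring (ℕ → ℂ) where
  carrier := {x | ∃ C, ∀ k, v (x k) ≤ C}
  one_mem' := ⟨1, fun _ => by simp⟩
  zero_mem' := ⟨0, fun _ => by simp⟩
  mul_mem' := by
    rintro x y ⟨C, hC⟩ ⟨D, hD⟩
    refine ⟨C * D, fun k => ?_⟩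
    rw [Pi.mul_apply, map_mul]
    exact mul_le_mul (hC k) (hD k) (v.nonneg _) ((v.nonneg _).trans (hC k))
  add_mem' := by
    rintro x y ⟨C, hC⟩ ⟨D, hD⟩
    exact ⟨C + D, fun k => (v.add_le _ _).trans (add_le_add (hC k) (hD k))⟩
  neg_mem' := by
    rintro x ⟨C, hC⟩
    exact ⟨C, fun k => by rw [Pi.neg_apply, v.map_neg]; exact hC k⟩

/-- the ultrafilter -/
abbrev UU : Filter ℕ := (hyperfilter ℕ : Filter ℕ)

/-- null sequences -/
def Nul : Ideal (BS v) where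
  carrier := {x | Tendsto (fun k => v (x.1 k)) UU (𝓝 0)}
  zero_mem' := by
    change Tendsto (fun k => v 0) UU (𝓝 0)
    rw [v.map_zero]; exact tendsto_const_nhds
  add_mem' := by
    intro x y hx hy
    refine squeeze_zero (fun k => v.nonneg _) (fun k => v.add_le _ _) ?_
    simpa using hx.add hy
  smul_mem' := by
    rintro ⟨c, C, hC⟩ x hx
    refine squeeze_zero (g := fun k => C * v (x.1 k)) (fun k => v.nonneg _) (fun k => ?_) ?_
    · exact (v.map_mul _ _).le.trans (mul_le_mul_of_nonneg_right (hC k) (v.nonneg _))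
    · simpa using hx.const_mul C

theorem mem_Nul {x : BS v} : x ∈ Nul v ↔ Tendsto (fun k => v (x.1 k)) UU (𝓝 0) := Iff.rfl

theorem not_mem_Nul {x : BS v} : x ∉ Nul v ↔ ∃ ε > 0, ∀ᶠ k in UU, ε ≤ v (x.1 k) := by
  rw [mem_Nul, Metric.tendsto_nhds]
  simp only [Real.dist_eq, sub_zero, abs_of_nonneg (v.nonneg _), not_forall,
    ← Ultrafilter.eventually_not, not_lt, exists_prop]

instance nul_prime : (Nul v).IsPrime := by
  refine ⟨(Ideal.ne_top_iff_one _).2 ((not_mem_Nul v).2 ⟨1, one_pos, by simp⟩), fun {x y} h => ?_⟩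
  by_contra h1
  rw [not_or, not_mem_Nul, not_mem_Nul] at h1
  obtain ⟨⟨ε, hε, h1⟩, η, hη, h2⟩ := h1
  refine (not_mem_Nul v).2 ⟨ε * η, mul_pos hε hη, ?_⟩ h
  filter_upwards [h1, h2] with k h3 h4
  exact (mul_le_mul h3 h4 hη.le (v.nonneg _)).trans (v.map_mul _ _).ge

/-- the residue field -/
def κ : Type := FractionRing (BS v ⧸ Nul v)

instance κ_field : Field (κ v) := inferInstanceAs (Field (FractionRing (BS v ⧸ Nul v)))

/-- the residue map -/
def π : BS v →+* κ v :=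
  (algebraMap (BS v ⧸ Nul v) (FractionRing (BS v ⧸ Nul v))).comp (Ideal.Quotient.mk (Nul v))

theorem π_eq_zero {x : BS v} : π v x = 0 ↔ x ∈ Nul v :=
  (map_eq_zero_iff _ (IsFractionRing.injective (BS v ⧸ Nul v) (FractionRing (BS v ⧸ Nul v)))).trans
    Ideal.Quotient.eq_zero_iff_mem

/-- constant sequences -/
def cst : ℂ →+* BS v := (Pi.constRingHom ℕ ℂ).codRestrict _ fun c => ⟨v c, fun _ => le_rfl⟩

/-- evaluation -/
def ev (k : ℕ) : BS v →+* ℂ := (Pi.evalRingHom _ k).comp (BS v).subtype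

theorem ev_apply (k : ℕ) (x : BS v) : ev v k x = x.1 k := rfl

variable {ι : Type*} [Fintype ι]

/-- `ℓ¹` size of a vector -/
def nv (w : ι → ℂ) : ℝ := ∑ i, v (w i)

theorem nv_nonneg (w : ι → ℂ) : 0 ≤ nv v w := Finset.sum_nonneg fun _ _ => v.nonneg _

theorem le_nv (w : ι → ℂ) (i : ι) : v (w i) ≤ nv v w :=
  Finset.single_le_sum (f := fun i => v (w i)) (fun _ _ => v.nonneg _) (Finset.mem_univ i)

theorem nv_smul (c : ℂ) (w : ι → ℂ) : nv v (c • w) = v c * nv v w := by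
  simp [nv, Finset.mul_sum]

theorem dot_le (a w : ι → ℂ) : v (a ⬝ᵥ w) ≤ nv v a * nv v w := by
  refine (v.sum_le _ _).trans ?_
  rw [nv, Finset.sum_mul]
  refine Finset.sum_le_sum fun i _ => ?_
  rw [map_mul]
  exact mul_le_mul_of_nonneg_left (le_nv v w i) (v.nonneg _)

theorem nv_mulVec_le (A : Matrix ι ι ℂ) (w : ι → ℂ) :
    nv v (A *ᵥ w) ≤ (∑ i, nv v (A i)) * nv v w := by
  rw [Finset.sum_mul]
  exact Finset.sum_le_sum fun i _ => dot_le v _ _

/-- `w` is `δ`-close to the kernel of `a` -/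
def Cl (a : ι → ℂ) (δ : ℝ) (w : ι → ℂ) : Prop := v (a ⬝ᵥ w) ≤ δ * nv v w

theorem Cl.smul {a w : ι → ℂ} {δ : ℝ} (h : Cl v a δ w) (c : ℂ) : Cl v a δ (c • w) := by
  rw [Cl, dotProduct_smul, smul_eq_mul, map_mul, nv_smul, mul_left_comm]
  exact mul_le_mul_of_nonneg_left h (v.nonneg _)

theorem exists_max [Nonempty ι] (w : ι → ℂ) : ∃ i, ∀ j, v (w j) ≤ v (w i) := by
  obtain ⟨i, -, h⟩ := Finset.exists_max_image Finset.univ (fun i => v (w i)) Finset.univ_nonempty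
  exact ⟨i, fun j => h j (Finset.mem_univ j)⟩

/-- a nonzero vector has a multiple with entries of size at most one, one of them being one -/
theorem exists_norm {w : ι → ℂ} (hw : w ≠ 0) :
    ∃ c : ℂ, c ≠ 0 ∧ (∀ j, v ((c • w) j) ≤ 1) ∧ (∃ i, (c • w) i = 1) ∧ ∀ j, v (w j) ≤ v c⁻¹ := by
  obtain ⟨j0, hj0⟩ := Function.ne_iff.1 hw
  have : Nonempty ι := ⟨j0⟩
  obtain ⟨i, hi⟩ := exists_max v w
  have h1 : w i ≠ 0 := fun h => hj0 (by
    have := hi j0
    rw [h, v.map_zero] at this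
    exact v.eq_zero.1 (le_antisymm this (v.nonneg _)))
  refine ⟨(w i)⁻¹, inv_ne_zero h1, fun j => ?_, ⟨i, inv_mul_cancel₀ h1⟩, by simpa using hi⟩
  rw [Pi.smul_apply, smul_eq_mul, map_mul, map_inv₀]
  exact inv_mul_le_one_of_le₀ (hi j) (v.nonneg _)

variable [DecidableEq ι]

/-- north-south dynamics of a sequence unbounded in `PGL` -/
theorem dyn (A A' : ℕ → Matrix ι ι ℂ) (hA : ∀ k, A k * A' k = 1)
    (hu : ∀ k : ℕ, ∃ i j i' j', (k : ℝ) < v (A k i j * A' k i' j')) :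
    ∃ (ξ : Bool → ι → BS v) (δ : ℕ → ℝ), (∀ s, π v ∘ ξ s ≠ 0) ∧ Tendsto δ UU (𝓝 0) ∧
      ∀ k w, ¬Cl v (ev v k ∘ ξ false) (δ k) w → Cl v (ev v k ∘ ξ true) (δ k) (A k *ᵥ w) := by
  have h0 : ∀ k, (fun p : ι × ι => A k p.1 p.2) ≠ 0 := fun k h => by
    obtain ⟨i, j, i', j', h1⟩ := hu k
    rw [show A k i j = 0 from congrFun h (i, j), zero_mul, v.map_zero] at h1
    exact absurd h1 (not_lt.2 k.cast_nonneg)
  choose c hc0 hc1 hc2 hc3 using fun k => exists_norm v (h0 k)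
  let B : Matrix ι ι (BS v) := fun i j => ⟨fun k => c k * A k i j, 1, fun k => hc1 k (i, j)⟩
  have hB : ∀ k, B.map (ev v k) = c k • A k := fun k => rfl
  obtain ⟨⟨i0, j0⟩, h1⟩ := (Ultrafilter.eventually_exists_iff (f := hyperfilter ℕ)).1
    (Eventually.of_forall hc2)
  have h2 : B i0 j0 ∉ Nul v := (not_mem_Nul v).2 ⟨1, one_pos, by
    filter_upwards [h1] with k hk
    change 1 ≤ v ((c k • fun p : ι × ι => A k p.1 p.2) (i0, j0))
    rw [hk, v.map_one]⟩
  have h3 : B.det ∈ Nul v := by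
    choose C hC using fun p : ι × ι => (B.adjugate p.1 p.2).2
    have h4 : ∀ k : ℕ, v (B.det.1 k) * k ≤ ∑ p, |C p| := fun k => by
      obtain ⟨i, j, i', j', h4⟩ := hu k
      have h5 : (c k • A k).adjugate = ((c k • A k).det * (c k)⁻¹) • A' k := by
        have h6 : (c k • A k) * ((c k)⁻¹ • A' k) = 1 := by
          rw [smul_mul_smul_comm, mul_inv_cancel₀ (hc0 k), one_smul, hA]
        rw [← mul_one (adjugate _), ← h6, ← mul_assoc, adjugate_mul, smul_mul_smul_comm, one_mul]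
      have h6 : (B.adjugate i' j').1 k = B.det.1 k * (c k)⁻¹ * A' k i' j' := by
        have h7 := congrFun (congrFun ((ev v k).map_adjugate B) i') j'
        have h8 : ev v k B.det = (c k • A k).det := (ev v k).map_det B
        rw [RingHom.mapMatrix_apply, RingHom.mapMatrix_apply, hB, h5, ← h8] at h7
        exact h7
      have h7 := hC (i', j') k
      rw [h6, mul_assoc, map_mul] at h7
      refine le_trans (le_trans ?_ h7) ((le_abs_self _).trans (Finset.single_le_sum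
        (f := fun p => |C p|) (fun _ _ => abs_nonneg _) (Finset.mem_univ _)))
      refine mul_le_mul_of_nonneg_left (h4.le.trans ?_) (v.nonneg _)
      rw [map_mul, map_mul]
      exact mul_le_mul_of_nonneg_right (hc3 k (i, j)) (v.nonneg _)
    refine Tendsto.mono_left ?_ Nat.hyperfilter_le_atTop
    refine squeeze_zero' (Eventually.of_forall fun k => v.nonneg _) ?_
      (tendsto_const_div_atTop_nhds_zero_nat (∑ p, |C p|))
    filter_upwards [eventually_gt_atTop 0] with k hk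
    exact (le_div_iff₀ (Nat.cast_pos.2 hk)).2 (h4 k)
  obtain ⟨w, hw0, hw⟩ := (exists_vecMul_eq_zero_iff
    (M := B.map (Ideal.Quotient.mk (Nul v)))).2 (by
      rw [← RingHom.mapMatrix_apply, ← RingHom.map_det, Ideal.Quotient.eq_zero_iff_mem]
      exact h3)
  choose ξ hξ using fun i => Ideal.Quotient.mk_surjective (w i)
  have h4 : ∀ j, (ξ ᵥ* B) j ∈ Nul v := fun j => by
    rw [← Ideal.Quotient.eq_zero_iff_mem, RingHom.map_vecMul,
      show Ideal.Quotient.mk (Nul v) ∘ ξ = w from funext hξ, hw]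
    rfl
  let η : ℕ → ℝ := fun k => nv v fun j => ((ξ ᵥ* B) j).1 k
  have hη : Tendsto η UU (𝓝 0) := by
    have := tendsto_finsetSum Finset.univ fun j _ => h4 j
    rw [Finset.sum_const_zero] at this
    exact this
  refine ⟨fun s => cond s ξ (B i0), fun k => √(η k), fun s => ?_, by simpa using hη.sqrt,
    fun k u hu => ?_⟩
  · cases s
    · exact fun h => h2 ((π_eq_zero v).1 (congrFun h j0))
    · intro h
      refine hw0 (funext fun i => ?_)
      rw [← hξ, Pi.zero_apply, Ideal.Quotient.eq_zero_iff_mem, ← π_eq_zero]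
      exact congrFun h i
  · have h5 : A k *ᵥ u = (c k)⁻¹ • (B.map (ev v k) *ᵥ u) := by
      rw [hB, smul_mulVec, smul_smul, inv_mul_cancel₀ (hc0 k), one_smul]
    rw [h5]
    refine Cl.smul v ?_ _
    have h6 : √(η k) * nv v u ≤ nv v (B.map (ev v k) *ᵥ u) :=
      (not_le.1 hu).le.trans (le_nv v (B.map (ev v k) *ᵥ u) i0)
    rw [Cl, dotProduct_mulVec]
    refine (dot_le v _ _).trans ?_
    have h7 : nv v ((ev v k ∘ ξ) ᵥ* B.map (ev v k)) = √(η k) * √(η k) := by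
      rw [Real.mul_self_sqrt (nv_nonneg v _)]
      exact Finset.sum_congr rfl fun j _ => congrArg v (RingHom.map_vecMul _ B ξ j).symm
    change nv v ((ev v k ∘ ξ) ᵥ* B.map (ev v k)) * _ ≤ _
    rw [h7, mul_assoc]
    exact mul_le_mul_of_nonneg_left h6 (Real.sqrt_nonneg _)

/-- a vector is close to at most `d - 1` of the translated kernels -/
theorem count {G : Type*} (ρ : G → Matrix ι ι ℂ) (ξ : ι → BS v) {δ : ℕ → ℝ}
    (hδ : Tendsto δ UU (𝓝 0)) (Γ : Finset G)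
    (hΓ : ∀ T ⊆ Γ, T.card ≤ Fintype.card ι →
      LinearIndepOn (κ v) (fun γ => (π v ∘ ξ) ᵥ* (ρ γ).map ((π v).comp (cst v))) (T : Set G)) :
    ∀ᶠ k in UU, ∀ w ≠ 0, ∀ T ⊆ Γ, (∀ γ ∈ T, Cl v (ev v k ∘ ξ) (δ k) (ρ γ *ᵥ w)) →
      T.card < Fintype.card ι := by
  classical
  by_contra h
  rw [← Ultrafilter.eventually_not] at h
  have h1 : ∀ᶠ k in UU, ∃ T ∈ (Γ.powersetCard (Fintype.card ι) : Set (Finset G)), ∃ i, ∃ w : ι → ℂ,
      (∀ j, v (w j) ≤ 1) ∧ w i = 1 ∧ ∀ γ ∈ T, Cl v (ev v k ∘ ξ) (δ k) (ρ γ *ᵥ w) := by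
    filter_upwards [h] with k hk
    push Not at hk
    obtain ⟨w, hw, T, hT, h1, h2⟩ := hk
    obtain ⟨T', h3, h4⟩ := Finset.exists_subset_card_eq h2
    obtain ⟨c, -, h5, ⟨i, h6⟩, -⟩ := exists_norm v hw
    refine ⟨T', Finset.mem_powersetCard.2 ⟨h3.trans hT, h4⟩, i, c • w, h5, h6, fun γ hγ => ?_⟩
    rw [mulVec_smul]
    exact Cl.smul v (h1 γ (h3 hγ)) c
  obtain ⟨T, hT, h2⟩ := (Ultrafilter.eventually_exists_mem_iff (Finset.finite_toSet _)).1 h1
  obtain ⟨i, h3⟩ := Ultrafilter.eventually_exists_iff.1 h2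
  obtain ⟨hT1, hT2⟩ := Finset.mem_powersetCard.1 hT
  have h4 : ∀ k, ∃ w : ι → ℂ, (∀ j, v (w j) ≤ 1) ∧ ((∃ w : ι → ℂ, (∀ j, v (w j) ≤ 1) ∧ w i = 1 ∧
      ∀ γ ∈ T, Cl v (ev v k ∘ ξ) (δ k) (ρ γ *ᵥ w)) →
      w i = 1 ∧ ∀ γ ∈ T, Cl v (ev v k ∘ ξ) (δ k) (ρ γ *ᵥ w)) := fun k => by
    by_cases h4 : ∃ w : ι → ℂ, (∀ j, v (w j) ≤ 1) ∧ w i = 1 ∧
      ∀ γ ∈ T, Cl v (ev v k ∘ ξ) (δ k) (ρ γ *ᵥ w)
    · obtain ⟨w, h5, h6⟩ := h4
      exact ⟨w, h5, fun _ => h6⟩
    · exact ⟨0, by simp, fun h5 => absurd h5 h4⟩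
  choose w hw1 hw2 using h4
  let u : ι → BS v := fun j => ⟨fun k => w k j, 1, fun k => hw1 k j⟩
  have h5 : π v ∘ u = 0 := by
    refine eq_zero_of_gp (hΓ T hT1 hT2.le) hT2 fun γ hγ => ?_
    have h5 : (ρ γ).map ((π v).comp (cst v)) = ((ρ γ).map (cst v)).map (π v) := rfl
    have h6 : (π v ∘ ξ) ᵥ* ((ρ γ).map (cst v)).map (π v) = π v ∘ (ξ ᵥ* (ρ γ).map (cst v)) :=
      funext fun j => (RingHom.map_vecMul _ _ _ j).symm
    simp only [h5, h6]
    rw [← RingHom.map_dotProduct, π_eq_zero, ← dotProduct_mulVec, mem_Nul]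
    refine squeeze_zero' (g := fun k => |δ k| * ((∑ i, nv v (ρ γ i)) * Fintype.card ι))
      (Eventually.of_forall fun k => v.nonneg _) ?_ (by simpa using hδ.abs.mul_const _)
    filter_upwards [h3] with k hk
    have h7 := (hw2 k hk).2 γ hγ
    have h8 : (ξ ⬝ᵥ (ρ γ).map (cst v) *ᵥ u).1 k = (ev v k ∘ ξ) ⬝ᵥ ρ γ *ᵥ w k := by
      rw [← ev_apply, RingHom.map_dotProduct]
      congr 1
      exact funext fun j => RingHom.map_mulVec _ _ _ j
    rw [h8]
    refine h7.trans (mul_le_mul (le_abs_self _) ((nv_mulVec_le v _ _).trans ?_) (nv_nonneg v _)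
      (abs_nonneg _))
    refine mul_le_mul_of_nonneg_left ?_ (Finset.sum_nonneg fun _ _ => nv_nonneg v _)
    exact (Finset.sum_le_card_nsmul _ _ 1 fun j _ => hw1 k j).trans (by simp)
  refine (not_mem_Nul v).2 ⟨1, one_pos, ?_⟩ ((π_eq_zero v).1 (congrFun h5 i))
  filter_upwards [h3] with k hk
  change 1 ≤ v (w k i)
  rw [(hw2 k hk).1, v.map_one]

end Fur

open Fur in
/-- **Furstenberg lemma.** A sequence with pairwise distinct images in `PGL` of a strongly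
irreducible representation has conjugates which do not almost fix a common probability. -/
theorem fur {G ι : Type*} [Group G] [Fintype ι] [DecidableEq ι] {K : Subgroup G}
    {ρ : G → Matrix ι ι ℂ} (hρ : RepOn K ρ) (hS : SSp K ρ)
    (hT : ∃ T : Finset ℂ, ∀ g ∈ K, ∀ i j, ρ g i j ∈ Subring.closure (T : Set ℂ))
    (a : ℕ → G) (ha : ∀ k, a k ∈ K) (hinf : ∀ k l, k ≠ l → ∀ c : ℂ, ρ (a k) ≠ c • ρ (a l))
    {c0 : ℝ} (hc0 : 0 < c0) :
    ∃ Γ : Finset G, (∀ γ ∈ Γ, γ ∈ K) ∧ ∃ᶠ k in atTop, ∀ p, IsProb p →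
      ∃ γ ∈ Γ, 2 - c0 < l1 (p.mapDomain (fun g => γ⁻¹ * a k * γ * g) - p) := by
  classical
  obtain ⟨T, hT⟩ := hT
  have hne : ∀ g ∈ K, ∃ p : ι × ι, ρ g p.1 p.2 ≠ 0 := fun g hg => by
    by_contra h
    push Not at h
    have h1 : ρ g = 0 := by ext i j; exact h (i, j)
    have h2 := hρ.mul_inv hg
    rw [h1, zero_mul] at h2
    refine hinf 0 1 zero_ne_one 1 ?_
    rw [← mul_one (ρ (a 0)), ← mul_one (ρ (a 1)), ← h2, mul_zero, mul_zero, smul_zero]
  have hd : 1 < Fintype.card ι := by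
    by_contra h
    have : Subsingleton ι := Fintype.card_le_one_iff_subsingleton.1 (not_lt.1 h)
    obtain ⟨⟨i, j⟩, h1⟩ := hne _ (ha 1)
    refine hinf 0 1 zero_ne_one (ρ (a 0) i j / ρ (a 1) i j) ?_
    ext i' j'
    rw [Subsingleton.elim i' i, Subsingleton.elim j' j, Matrix.smul_apply, smul_eq_mul,
      div_mul_cancel₀ _ h1]
  let f : ℕ → (ι × ι) × ι × ι → ℂ := fun k q => ρ (a k) q.1.1 q.1.2 * ρ (a k)⁻¹ q.2.1 q.2.2
  have hf : Function.Injective f := fun k l h => by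
    by_contra hkl
    obtain ⟨q, hq⟩ := hne _ (K.inv_mem (ha k))
    refine hinf k l hkl (ρ (a l)⁻¹ q.1 q.2 / ρ (a k)⁻¹ q.1 q.2) ?_
    ext i j
    have h1 : ρ (a k) i j * _ = ρ (a l) i j * _ := congrFun h ((i, j), q)
    rw [Matrix.smul_apply, smul_eq_mul, div_mul_eq_mul_div, eq_div_iff hq, h1, mul_comm]
  obtain ⟨v, hv⟩ : ∃ v : AbsoluteValue ℂ ℝ, ∀ C, ∃ k q, C < v (f k q) := by
    by_contra h
    push Not at h
    have h1 := BG.finite_of_bd T (S := {x | ∃ k q, f k q = x}) (by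
      rintro _ ⟨k, q, rfl⟩
      exact Subring.mul_mem _ (hT _ (ha k) _ _) (hT _ (K.inv_mem (ha k)) _ _)) fun v => by
        obtain ⟨C, hC⟩ := h v
        exact ⟨C, by rintro _ ⟨k, q, rfl⟩; exact hC k q⟩
    exact Set.infinite_range_of_injective hf ((Set.Finite.pi' fun _ => h1).subset (by
      rintro _ ⟨k, rfl⟩ q
      exact ⟨k, q, rfl⟩))
  have hφ : ∀ n : ℕ, ∃ k, n ≤ k ∧ ∃ q, (n : ℝ) < v (f k q) := fun n => by
    obtain ⟨k, q, h⟩ := hv (n + ∑ k ∈ Finset.range n, nv v (f k))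
    have h1 : 0 ≤ ∑ k ∈ Finset.range n, nv v (f k) := Finset.sum_nonneg fun _ _ => nv_nonneg v _
    refine ⟨k, not_lt.1 fun h2 => ?_, q, by linarith⟩
    have h3 := (le_nv v (f k) q).trans (Finset.single_le_sum (f := fun k => nv v (f k))
      (fun _ _ => nv_nonneg v _) (Finset.mem_range.2 h2))
    linarith [(n.cast_nonneg : (0 : ℝ) ≤ n)]
  choose φ hφ1 hφ2 using hφ
  obtain ⟨ξ, δ, hξ, hδ, hdyn⟩ := dyn v (fun n => ρ (a (φ n))) (fun n => ρ (a (φ n))⁻¹)
    (fun n => hρ.mul_inv (ha _)) fun n => by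
      obtain ⟨q, hq⟩ := hφ2 n
      exact ⟨_, _, _, _, hq⟩
  obtain ⟨Γ, hΓ1, hΓ2, hΓ3⟩ := exists_gp (hρ.comp ((π v).comp (cst v)).mapMatrix.toMonoidHom)
    (hS.sir _) hd (fun s => π v ∘ ξ s) hξ ⌈4 * Fintype.card ι / c0⌉₊
  refine ⟨Γ, hΓ2, frequently_atTop.2 fun M => ?_⟩
  obtain ⟨n, ⟨h1, h2⟩, h3⟩ := (((count v ρ (ξ false) hδ Γ (hΓ3 false)).and
    (count v ρ (ξ true) hδ Γ (hΓ3 true))).and
    ((eventually_ge_atTop M).filter_mono Nat.hyperfilter_le_atTop)).exists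
  refine ⟨φ n, h3.trans (hφ1 n), fun p hp => ?_⟩
  by_contra h4
  push Not at h4
  obtain ⟨r, hr1, hr2⟩ := exists_retr K
  obtain ⟨i0⟩ : Nonempty ι := Fintype.card_pos_iff.1 (by omega)
  let u : G → ι → ℂ := fun g => ρ (r g) *ᵥ Pi.single i0 1
  have hu : ∀ g, u g ≠ 0 := fun g h => by
    have h5 := congrArg (fun w => (ρ (r g)⁻¹ *ᵥ w) i0) h
    simp only [u, mulVec_mulVec, hρ.inv_mul (hr1 g)] at h5
    simp at h5
  let E : Bool → G → G → Prop := fun s γ g => Cl v (ev v n ∘ ξ s) (δ n) (ρ γ *ᵥ u g)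
  have h5 : ∀ γ ∈ Γ, c0 / 2 ≤ lc (fun g => if E false γ g then 1 else 0) p +
      lc (fun g => if E true γ g then 1 else 0) p := fun γ hγ => by
    have h5 := pingpong hp (b := fun g => γ⁻¹ * a (φ n) * γ * g) (A := E false γ) (B := E true γ)
      fun g hg => by
        have h6 := hdyn n _ hg
        have hγ' := hΓ2 γ hγ
        have h7 := K.mul_mem (K.mul_mem (K.inv_mem hγ') (ha (φ n))) hγ'
        simp only [E, u, mulVec_mulVec] at h6 ⊢
        rwa [hr2 _ h7, ← hρ.mul _ hγ' _ (K.mul_mem h7 (hr1 g)),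
          show γ * (γ⁻¹ * a (φ n) * γ * r g) = a (φ n) * (γ * r g) by group,
          hρ.mul _ (ha _) _ (K.mul_mem hγ' (hr1 g)), hρ.mul _ hγ' _ (hr1 g)]
    linarith [h4 γ hγ]
  have h6 : ∀ s, (∀ w ≠ 0, ∀ T ⊆ Γ, (∀ γ ∈ T, Cl v (ev v n ∘ ξ s) (δ n) (ρ γ *ᵥ w)) →
      T.card < Fintype.card ι) →
      ∑ γ ∈ Γ, lc (fun g => if E s γ g then 1 else 0) p ≤ Fintype.card ι - 1 := fun s h => by
    rw [← lc_sum, ← lc_const hp (Fintype.card ι - 1)]
    refine lc_mono hp fun g => ?_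
    rw [Finset.sum_boole]
    have h6 := h (u g) (hu g) (Γ.filter fun γ => E s γ g) (Finset.filter_subset _ _)
      fun γ hγ => (Finset.mem_filter.1 hγ).2
    have h7 : (((Γ.filter fun γ => E s γ g).card + 1 : ℕ) : ℝ) ≤ Fintype.card ι := by
      exact_mod_cast h6
    push_cast at h7
    linarith
  have h7 := Finset.sum_le_sum h5
  rw [Finset.sum_add_distrib, Finset.sum_const, hΓ1, nsmul_eq_mul] at h7
  have h8 := (div_le_iff₀ hc0).1 (Nat.le_ceil (4 * Fintype.card ι / c0))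
  linarith [h6 false h1, h6 true h2]

end Crest.Agent.X261.Grp
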