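import Crest.Agent.X261.Grp.Defs

/-!
# Row 261, package GRP (helper85): covers by subspaces, covectors in general position
-/

set_option autoImplicit false

namespace Crest.Agent.X261.Grp

open Module Matrix

variable {G : Type*} [Group G]

/-- `ρ` is multiplicative on the subgroup `K` -/
structure RepOn {A : Type*} [Monoid A] (K : Subgroup G) (ρ : G → A) : Prop where
  one : ρ 1 = 1
  mul : ∀ a ∈ K, ∀ b ∈ K, ρ (a * b) = ρ a * ρ b

namespace RepOn

variable {A : Type*} [Monoid A] {K K' : Subgroup G} {ρ : G → A}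

theorem mono (h : RepOn K ρ) (hK : K' ≤ K) : RepOn K' ρ :=
  ⟨h.one, fun a ha b hb => h.mul a (hK ha) b (hK hb)⟩

theorem mul_inv (h : RepOn K ρ) {a : G} (ha : a ∈ K) : ρ a * ρ a⁻¹ = 1 := by
  rw [← h.mul a ha _ (K.inv_mem ha), mul_inv_cancel, h.one]

theorem inv_mul (h : RepOn K ρ) {a : G} (ha : a ∈ K) : ρ a⁻¹ * ρ a = 1 := by
  rw [← h.mul _ (K.inv_mem ha) a ha, inv_mul_cancel, h.one]

theorem of_hom (f : G →* A) (K : Subgroup G) : RepOn K f :=
  ⟨f.map_one, fun a _ b _ => f.map_mul a b⟩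

theorem comp {B : Type*} [Monoid B] (h : RepOn K ρ) (f : A →* B) : RepOn K fun g => f (ρ g) :=
  ⟨by rw [h.one, map_one], fun a ha b hb => by rw [h.mul a ha b hb, map_mul]⟩

/-- the kernel inside `K` -/
def ker (h : RepOn K ρ) : Subgroup G where
  carrier := {x | x ∈ K ∧ ρ x = 1}
  one_mem' := ⟨K.one_mem, h.one⟩
  mul_mem' := fun {x y} hx hy =>
    ⟨K.mul_mem hx.1 hy.1, by rw [h.mul x hx.1 y hy.1, hx.2, hy.2, mul_one]⟩
  inv_mem' := fun {x} hx => ⟨K.inv_mem hx.1, by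
    have := h.mul_inv hx.1
    rwa [hx.2, one_mul] at this⟩

theorem mem_ker (h : RepOn K ρ) {x : G} : x ∈ h.ker ↔ x ∈ K ∧ ρ x = 1 := Iff.rfl

theorem comm_mem_ker (h : RepOn K ρ) {a b : G} (ha : a ∈ K) (hb : b ∈ K)
    (hab : ρ a * ρ b = ρ b * ρ a) : (open commutatorElement in ⁅a, b⁆) ∈ h.ker := by
  rw [commutatorElement_def]
  have h1 := K.mul_mem ha hb
  have h2 := K.mul_mem h1 (K.inv_mem ha)
  refine ⟨K.mul_mem h2 (K.inv_mem hb), ?_⟩
  rw [h.mul _ h2 _ (K.inv_mem hb), h.mul _ h1 _ (K.inv_mem ha), h.mul _ ha _ hb, hab,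
    mul_assoc (ρ b), h.mul_inv ha, mul_one, h.mul_inv hb]

end RepOn

/-- if a group of units is covered by finitely many subspaces, one of them contains a coset of a
finite index subgroup -/
theorem cover_coset {κ E : Type*} [Field κ] [Ring E] [Algebra κ E] [FiniteDimensional κ E]
    {K : Subgroup G} {ρ : G → E} (hρ : RepOn K ρ) (LL : Finset (Submodule κ E))
    (hLL : ∀ x ∈ K, ∃ L ∈ LL, ρ x ∈ L) :
    ∃ K', FI K' K ∧ ∃ g ∈ K, ∃ L ∈ LL, ∀ x ∈ K', ρ (g * x) ∈ L := by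
  classical
  let Cv : Finset (Submodule κ E) → Prop := fun C =>
    (∀ L ∈ C, ∃ L0 ∈ LL, L ≤ L0) ∧ ∀ x ∈ K, ∃ L ∈ C, ρ x ∈ L
  have h0 : ∃ D, ∃ C, Cv C ∧ ∀ L ∈ C, finrank κ L ≤ D :=
    ⟨finrank κ E, LL, ⟨fun L hL => ⟨L, hL, le_rfl⟩, hLL⟩, fun L _ => L.finrank_le⟩
  set D := Nat.find h0 with hD
  have h1 : ∃ k, ∃ C, Cv C ∧ (∀ L ∈ C, finrank κ L ≤ D) ∧
      (C.filter fun L : Submodule κ E => finrank κ L = D).card = k := by
    obtain ⟨C, h2, h3⟩ := Nat.find_spec h0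
    exact ⟨_, C, h2, h3, rfl⟩
  obtain ⟨C, hC, hCD, hk⟩ := Nat.find_spec h1
  have hmin : ∀ C', Cv C' → (∀ L ∈ C', finrank κ L ≤ D) →
      (C.filter fun L : Submodule κ E => finrank κ L = D).card ≤ (C'.filter fun L : Submodule κ E => finrank κ L = D).card :=
    fun C' h2 h3 => hk ▸ Nat.find_min' h1 ⟨C', h2, h3, rfl⟩
  obtain ⟨L1, hL1, hL1D⟩ : ∃ L ∈ C, finrank κ L = D := by
    by_contra h2
    push Not at h2
    obtain ⟨L, hL, -⟩ := hC.2 1 K.one_mem
    have h3 : 0 < D := (Nat.zero_le _).trans_lt (lt_of_le_of_ne (hCD L hL) (h2 L hL))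
    refine Nat.find_min h0 (m := D - 1) (by omega) ⟨C, hC, fun L hL => ?_⟩
    have := lt_of_le_of_ne (hCD L hL) (h2 L hL)
    omega
  obtain ⟨g, hg, hgL⟩ : ∃ g ∈ K, ρ g ∈ L1 := by
    by_contra h2
    push Not at h2
    have h3 := hmin (C.erase L1) ⟨fun L hL => hC.1 L (Finset.mem_of_mem_erase hL), fun x hx => by
      obtain ⟨L, hL, h4⟩ := hC.2 x hx
      exact ⟨L, Finset.mem_erase.2 ⟨fun h5 => h2 x hx (h5 ▸ h4), hL⟩, h4⟩⟩
      fun L hL => hCD L (Finset.mem_of_mem_erase hL)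
    rw [Finset.filter_erase] at h3
    exact absurd h3 (not_le.2 (Finset.card_erase_lt_of_mem (Finset.mem_filter.2 ⟨hL1, hL1D⟩)))
  have hmove : ∀ x ∈ K, L1.comap (LinearMap.mulRight κ (ρ x)) ∈ C := by
    intro x hx
    have hx' := K.inv_mem hx
    let C' := (C ×ˢ C).image fun p => p.1 ⊓ p.2.comap (LinearMap.mulRight κ (ρ x⁻¹))
    have h2 : ∀ L ∈ C', ∃ L1 ∈ C, ∃ L2 ∈ C, L1 ⊓ L2.comap (LinearMap.mulRight κ (ρ x⁻¹)) = L := by
      intro L hL
      obtain ⟨p, hp, rfl⟩ := Finset.mem_image.1 hL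
      exact ⟨p.1, (Finset.mem_product.1 hp).1, p.2, (Finset.mem_product.1 hp).2, rfl⟩
    have h3 := hmin C' ⟨fun L hL => by
        obtain ⟨L1, h3, L2, -, rfl⟩ := h2 L hL
        obtain ⟨L0, h4, h5⟩ := hC.1 L1 h3
        exact ⟨L0, h4, inf_le_left.trans h5⟩, fun y hy => by
        obtain ⟨L1, h3, h4⟩ := hC.2 y hy
        obtain ⟨L2, h5, h6⟩ := hC.2 _ (K.mul_mem hy hx')
        refine ⟨_, Finset.mem_image.2 ⟨(L1, L2), Finset.mem_product.2 ⟨h3, h5⟩, rfl⟩, h4, ?_⟩
        rw [hρ.mul y hy _ hx'] at h6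
        exact h6⟩ fun L hL => by
        obtain ⟨L1, h3, L2, -, rfl⟩ := h2 L hL
        exact (Submodule.finrank_mono inf_le_left).trans (hCD L1 h3)
    have h4 : (C'.filter fun L : Submodule κ E => finrank κ L = D) ⊆ C.filter fun L : Submodule κ E => finrank κ L = D := by
      intro L hL
      obtain ⟨h5, h6⟩ := Finset.mem_filter.1 hL
      obtain ⟨L1, h7, L2, -, rfl⟩ := h2 L h5
      have h8 := Submodule.eq_of_le_of_finrank_le inf_le_left ((hCD L1 h7).trans h6.ge)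
      rw [h8] at h6 ⊢
      exact Finset.mem_filter.2 ⟨h7, h6⟩
    have h5 : L1 ∈ C'.filter fun L : Submodule κ E => finrank κ L = D := by
      rw [Finset.eq_of_subset_of_card_le h4 h3]
      exact Finset.mem_filter.2 ⟨hL1, hL1D⟩
    obtain ⟨L2, h6, L3, h7, h8⟩ := h2 L1 (Finset.mem_filter.1 h5).1
    have h9 : L1 ≤ L3.comap (LinearMap.mulRight κ (ρ x⁻¹)) := h8 ▸ inf_le_right
    have h10 : L1.comap (LinearMap.mulRight κ (ρ x)) ≤ L3 := fun T hT => by
      have := h9 hT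
      rwa [Submodule.mem_comap, LinearMap.mulRight_apply, LinearMap.mulRight_apply, mul_assoc,
        hρ.mul_inv hx, mul_one] at this
    have h11 : D ≤ finrank κ (L1.comap (LinearMap.mulRight κ (ρ x))) := by
      rw [← hL1D]
      refine LinearMap.finrank_le_finrank_of_injective
        (f := (LinearMap.mulRight κ (ρ x⁻¹)).restrict
          (p := L1) (q := L1.comap (LinearMap.mulRight κ (ρ x))) fun T hT => ?_) ?_
      · rwa [Submodule.mem_comap, LinearMap.mulRight_apply, LinearMap.mulRight_apply, mul_assoc,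
          hρ.inv_mul hx, mul_one]
      · intro T T' h
        have h12 : T.1 * ρ x⁻¹ * ρ x = T'.1 * ρ x⁻¹ * ρ x :=
          congrArg (fun y => y * ρ x) (congrArg Subtype.val h)
        rw [mul_assoc, mul_assoc, hρ.inv_mul hx, mul_one, mul_one] at h12
        exact Subtype.ext h12
    rw [Submodule.eq_of_le_of_finrank_le h10 ((hCD L3 h7).trans h11)]
    exact h7
  let K' : Subgroup G :=
    { carrier := {h | h ∈ K ∧ ∀ T, T ∈ L1 ↔ T * ρ h ∈ L1}
      one_mem' := ⟨K.one_mem, fun T => by rw [hρ.one, mul_one]⟩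
      mul_mem' := fun {a b} ha hb => ⟨K.mul_mem ha.1 hb.1, fun T => by
        rw [hρ.mul a ha.1 b hb.1, ← mul_assoc, ← hb.2, ← ha.2]⟩
      inv_mem' := fun {a} ha => ⟨K.inv_mem ha.1, fun T => by
        rw [ha.2 (T * ρ a⁻¹), mul_assoc, hρ.inv_mul ha.1, mul_one]⟩ }
  obtain ⟨L0, hL0, hle⟩ := hC.1 L1 hL1
  refine ⟨K', FI.of_finite_map (fun _ h => h.1)
    (fun x => L1.comap (LinearMap.mulRight κ (ρ x))) (C.finite_toSet.subset ?_) ?_, g, hg, L0, hL0,
    fun x hx => hle ?_⟩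
  · rintro _ ⟨x, hx, rfl⟩
    exact hmove x hx
  · intro x hx y hy h
    refine ⟨K.mul_mem (K.inv_mem hx) hy, fun T => ?_⟩
    have h2 := SetLike.ext_iff.1 h (T * ρ x⁻¹)
    simp only [Submodule.mem_comap, LinearMap.mulRight_apply] at h2
    rwa [mul_assoc, hρ.inv_mul hx, mul_one, mul_assoc, ← hρ.mul _ (K.inv_mem hx) _ hy] at h2
  · rw [hρ.mul g hg x hx.1]
    exact (hx.2 _).1 hgL

section GP

variable {κ ι : Type*} [Field κ] [Fintype ι] [DecidableEq ι] {K : Subgroup G}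
  {ρ : G → Matrix ι ι κ}

/-- strong irreducibility on covectors -/
def SIr (K : Subgroup G) (ρ : G → Matrix ι ι κ) : Prop :=
  ∀ K', FI K' K → ∀ W : Submodule κ (ι → κ), (∀ x ∈ K', ∀ w ∈ W, w ᵥ* ρ x ∈ W) → W = ⊥ ∨ W = ⊤

theorem avoid (hρ : RepOn K ρ) (hS : SIr K ρ) {σ : Type*} (J : Finset σ) (ξ : σ → ι → κ)
    (W : σ → Submodule κ (ι → κ)) (hξ : ∀ s ∈ J, ξ s ≠ 0) (hW : ∀ s ∈ J, W s ≠ ⊤) :
    ∃ γ ∈ K, ∀ s ∈ J, ξ s ᵥ* ρ γ ∉ W s := by
  classical
  by_contra h
  push Not at h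
  let f : σ → Matrix ι ι κ →ₗ[κ] (ι → κ) := fun s =>
    { toFun := fun T => ξ s ᵥ* T
      map_add' := fun T T' => vecMul_add _ _ _
      map_smul' := fun c T => vecMul_smul _ _ _ }
  obtain ⟨K', hK', g, hg, L, hL, h1⟩ := cover_coset hρ (J.image fun s => (W s).comap (f s))
    fun x hx => by
      obtain ⟨s, hs, h1⟩ := h x hx
      exact ⟨_, Finset.mem_image_of_mem _ hs, h1⟩
  obtain ⟨s, hs, rfl⟩ := Finset.mem_image.1 hL
  let W' := Submodule.span κ ((fun x => ξ s ᵥ* ρ (g * x)) '' K')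
  have h2 : W' ≤ W s := Submodule.span_le.2 (by rintro _ ⟨x, hx, rfl⟩; exact h1 x hx)
  rcases hS K' hK' W' (fun x hx w hw => by
    refine Submodule.span_induction (p := fun w _ => w ᵥ* ρ x ∈ W') ?_ ?_ ?_ ?_ hw
    · rintro _ ⟨y, hy, rfl⟩
      refine Submodule.subset_span ⟨y * x, K'.mul_mem hy hx, ?_⟩
      simp only [vecMul_vecMul]
      rw [← mul_assoc, hρ.mul _ (K.mul_mem hg (hK'.le hy)) _ (hK'.le hx)]
    · rw [zero_vecMul]; exact W'.zero_mem
    · intro a b _ _ ha hb; rw [add_vecMul]; exact W'.add_mem ha hb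
    · intro c a _ ha; rw [smul_vecMul]; exact W'.smul_mem c ha) with h3 | h3
  · have h4 : ξ s ᵥ* ρ (g * 1) ∈ W' := Submodule.subset_span ⟨1, K'.one_mem, rfl⟩
    rw [h3, mul_one, Submodule.mem_bot] at h4
    refine hξ s hs ?_
    rw [← vecMul_one (ξ s), ← hρ.mul_inv hg, ← vecMul_vecMul, h4, zero_vecMul]
  · exact hW s hs (top_le_iff.1 (h3 ▸ h2))

/-- translates of finitely many covectors in general position -/
theorem exists_gp (hρ : RepOn K ρ) (hS : SIr K ρ) (hd : 1 < Fintype.card ι) {σ : Type*} [Fintype σ]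
    (ξ : σ → ι → κ) (hξ : ∀ s, ξ s ≠ 0) (N : ℕ) :
    ∃ Γ : Finset G, Γ.card = N ∧ (∀ γ ∈ Γ, γ ∈ K) ∧ ∀ s, ∀ T ⊆ Γ, T.card ≤ Fintype.card ι →
      LinearIndepOn κ (fun γ => ξ s ᵥ* ρ γ) (T : Set G) := by
  classical
  induction N with
  | zero =>
    refine ⟨∅, rfl, by simp, fun s T hT _ => ?_⟩
    rw [Finset.subset_empty.1 hT]
    simp
  | succ N ih =>
    obtain ⟨Γ, h1, h2, h3⟩ := ih
    obtain ⟨y, hy, h4⟩ := avoid hρ hS
      (Finset.univ ×ˢ Γ.powerset.filter fun T => T.card < Fintype.card ι) (fun p => ξ p.1)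
      (fun p : σ × Finset G => Submodule.span κ ((fun γ => ξ p.1 ᵥ* ρ γ) '' (p.2 : Set G)))
      (fun p _ => hξ p.1) fun p hp => by
        have h4 := (Finset.mem_filter.1 (Finset.mem_product.1 hp).2).2
        rw [← Finset.coe_image]
        refine ne_of_lt (span_lt_top_of_card_lt_finrank ?_)
        rw [Finset.toFinset_coe, Module.finrank_fintype_fun_eq_card]
        exact Finset.card_image_le.trans_lt h4
    have h5 : ∀ s, ∀ T ⊆ Γ, T.card < Fintype.card ι →
        ξ s ᵥ* ρ y ∉ Submodule.span κ ((fun γ => ξ s ᵥ* ρ γ) '' (T : Set G)) := fun s T hT hc =>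
      h4 (s, T) (Finset.mem_product.2 ⟨Finset.mem_univ _,
        Finset.mem_filter.2 ⟨Finset.mem_powerset.2 hT, hc⟩⟩)
    by_cases hy' : y ∈ Γ
    · rcases isEmpty_or_nonempty σ with hσ | ⟨⟨s⟩⟩
      · obtain ⟨y', hy'K, h6⟩ := avoid hρ hS (Finset.univ ×ˢ Γ)
          (fun p : ι × G => Pi.single p.1 1)
          (fun p => Submodule.span κ {(Pi.single p.1 1 : ι → κ) ᵥ* ρ p.2})
          (fun p _ h => by simpa using congrFun h p.1) fun p _ => by
            refine ne_of_lt (span_lt_top_of_card_lt_finrank ?_)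
            rw [Module.finrank_fintype_fun_eq_card]
            simpa using hd
        obtain ⟨i⟩ : Nonempty ι := Fintype.card_pos_iff.1 (by omega)
        have h7 : y' ∉ Γ := fun h7 => h6 (i, y') (Finset.mem_product.2 ⟨Finset.mem_univ _, h7⟩)
          (Submodule.subset_span rfl)
        refine ⟨insert y' Γ, by rw [Finset.card_insert_of_notMem h7, h1], fun γ hγ => ?_,
          fun s => hσ.elim s⟩
        rcases Finset.mem_insert.1 hγ with rfl | hγ
        exacts [hy'K, h2 γ hγ]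
      · exact (h5 s {y} (Finset.singleton_subset_iff.2 hy') (by simpa using hd)
          (Submodule.subset_span ⟨y, by simp, rfl⟩)).elim
    refine ⟨insert y Γ, by rw [Finset.card_insert_of_notMem hy', h1], fun γ hγ => ?_,
      fun s T hT hc => ?_⟩
    · rcases Finset.mem_insert.1 hγ with rfl | hγ
      exacts [hy, h2 γ hγ]
    · by_cases hyT : y ∈ T
      · have h6 : T.erase y ⊆ Γ := Finset.subset_insert_iff.1 hT
        have h7 : (T.erase y).card < Fintype.card ι :=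
          (Finset.card_erase_lt_of_mem hyT).trans_le hc
        rw [← Finset.insert_erase hyT, Finset.coe_insert]
        exact (h3 s _ h6 h7.le).insert (h5 s _ h6 h7)
      · exact h3 s T ((Finset.subset_insert_iff_of_notMem hyT).1 hT) hc

omit [Group G] in
theorem eq_zero_of_gp {T : Finset G} {f : G → ι → κ} (h : LinearIndepOn κ f (T : Set G))
    (hT : T.card = Fintype.card ι) {u : ι → κ} (hu : ∀ γ ∈ T, f γ ⬝ᵥ u = 0) : u = 0 := by
  have h1 := LinearIndependent.span_eq_top_of_card_eq_finrank' h (by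
    rw [Module.finrank_fintype_fun_eq_card, ← hT]; simp)
  have h2 : ∀ w ∈ Submodule.span κ (Set.range fun x : (T : Set G) => f x), w ⬝ᵥ u = 0 := by
    intro w hw
    induction hw using Submodule.span_induction with
    | mem w hw => obtain ⟨x, rfl⟩ := hw; exact hu x x.2
    | zero => exact zero_dotProduct _
    | add a b _ _ ha hb => rw [add_dotProduct, ha, hb, add_zero]
    | smul c a _ ha => rw [smul_dotProduct, ha, smul_zero]
  funext i
  simpa using h2 (Pi.single i 1) (h1 ▸ Submodule.mem_top)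

/-- strong spanning -/
def SSp (K : Subgroup G) (ρ : G → Matrix ι ι κ) : Prop :=
  ∀ K', FI K' K → Submodule.span κ (ρ '' K') = ⊤

theorem SSp.sir (hS : SSp K ρ) {κ' : Type*} [Field κ'] (c : κ →+* κ') :
    SIr K fun g => (ρ g).map c := by
  intro K' hK' W hW
  have h1 : ∀ T ∈ Submodule.span κ (ρ '' K'), ∀ w ∈ W, w ᵥ* T.map c ∈ W := by
    intro T hT
    induction hT using Submodule.span_induction with
    | mem T hT => obtain ⟨x, hx, rfl⟩ := hT; exact hW x hx
    | zero => intro w _; simp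
    | add a b _ _ ha hb =>
      intro w hw
      rw [Matrix.map_add _ (map_add c), vecMul_add]
      exact W.add_mem (ha w hw) (hb w hw)
    | smul r a _ ha =>
      intro w hw
      have : (r • a).map c = c r • a.map c := by ext i j; simp
      rw [this, vecMul_smul]
      exact W.smul_mem _ (ha w hw)
  rw [hS K' hK'] at h1
  by_cases h0 : W = ⊥
  · exact Or.inl h0
  obtain ⟨w, hw, hw0⟩ := Submodule.exists_mem_ne_zero_of_ne_bot h0
  obtain ⟨i, hi⟩ := Function.ne_iff.1 hw0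
  refine Or.inr (eq_top_iff.2 ?_)
  rw [← (Pi.basisFun κ' ι).span_eq, Submodule.span_le]
  rintro _ ⟨j, rfl⟩
  have h2 := W.smul_mem (w i)⁻¹ (h1 (Matrix.single i j 1) trivial w hw)
  have h3 : w i ≠ 0 := hi
  have h4 : Pi.basisFun κ' ι j = (w i)⁻¹ • w ᵥ* (Matrix.single i j (1 : κ)).map c := ?_
  · rw [h4]; exact h2
  ext l
  simp only [Pi.basisFun_apply, Pi.smul_apply, vecMul, dotProduct, Matrix.map_apply,
    Matrix.single, of_apply, smul_eq_mul]
  rw [Finset.sum_eq_single i (fun b _ hb => by simp [hb.symm]) (by simp)]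
  by_cases hl : j = l
  · subst hl; simp [h3]
  · simp [hl, Ne.symm hl]

end GP

end Crest.Agent.X261.Grp
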