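import Crest.Agent.X261.Grp.Tits
import Crest.Agent.X261.Loc.Defs

/-!
# Row 261, package GRP (helper39): consequences of the adjoint representation `IG.Ad`

* `vs_of_ad`    : weak overlap of the small elements makes `G₀` virtually solvable;
* `false_of_ad` : impossible in a non amenable just non VA group;
* `vind_of_ad`  : in an amenable just non VA group every nontrivial finitely generated normal
  subgroup is virtually indicable.
-/

set_option autoImplicit false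

namespace Crest.Agent.X261.Grp

open Crest.Agent.R189 Crest.Agent.X261.Loc Filter Topology
open scoped commutatorElement

variable {G E : Type*} [Group G] [NormedAddCommGroup E] [NormedSpace ℝ E]

namespace IGM

/-- the small elements -/
def sm (I : IG G E) (ε : ℝ) : Set G := {g | g ∈ I.S ∧ ‖I.v g‖ < ε}

theorem sm_mono (I : IG G E) {ε ε' : ℝ} (h : ε ≤ ε') : sm I ε ⊆ sm I ε' :=
  fun _ hg => ⟨hg.1, hg.2.trans_le h⟩

theorem exists_mul (I : IG G E) {ε : ℝ} (hε : 0 < ε) :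
    ∃ η > 0, ∀ g ∈ sm I η, ∀ h ∈ sm I η, g * h ∈ sm I ε := by
  have h0 : 0 < |I.C| + 2 := by positivity
  refine ⟨min (min I.δ 1) (ε / (|I.C| + 2)), lt_min (lt_min I.δ_pos one_pos) (by positivity),
    fun g hg h hh => ?_⟩
  obtain ⟨⟨h1, h2⟩, h3⟩ := (lt_min_iff.1 hg.2).imp_left lt_min_iff.1
  obtain ⟨⟨h4, -⟩, h5⟩ := (lt_min_iff.1 hh.2).imp_left lt_min_iff.1
  obtain ⟨h6, h7⟩ := I.mul g hg.1 h hh.1 h1 h4
  refine ⟨h6, ?_⟩
  have h8 : ‖I.v (g * h)‖ ≤ ‖I.v (g * h) - I.v g - I.v h‖ + ‖I.v g‖ + ‖I.v h‖ := by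
    have := norm_add₃_le (a := I.v (g * h) - I.v g - I.v h) (b := I.v g) (c := I.v h)
    rwa [show I.v (g * h) - I.v g - I.v h + I.v g + I.v h = I.v (g * h) by abel] at this
  have h9 : I.C * ‖I.v g‖ * ‖I.v h‖ ≤ |I.C| * (ε / (|I.C| + 2)) := by
    rw [mul_assoc]
    refine (mul_le_mul_of_nonneg_right (le_abs_self _) (by positivity)).trans
      (mul_le_mul_of_nonneg_left ?_ (abs_nonneg _))
    exact (mul_le_of_le_one_left (norm_nonneg _) h2.le).trans h5.le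
  have h10 := mul_div_cancel₀ ε h0.ne'
  linarith

/-- the group topology defined by the small elements -/
@[reducible] def gfb (I : IG G E) : GroupFilterBasis G where
  sets := {U | ∃ ε > 0, U = sm I ε}
  nonempty := ⟨_, 1, one_pos, rfl⟩
  inter_sets := by
    rintro _ _ ⟨a, ha, rfl⟩ ⟨b, hb, rfl⟩
    exact ⟨_, ⟨_, lt_min ha hb, rfl⟩,
      Set.subset_inter (sm_mono I (min_le_left _ _)) (sm_mono I (min_le_right _ _))⟩
  one' := by
    rintro _ ⟨a, ha, rfl⟩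
    exact ⟨I.one_mem, by rwa [I.v_one, norm_zero]⟩
  mul' := by
    rintro _ ⟨a, ha, rfl⟩
    obtain ⟨η, h1, h2⟩ := exists_mul I ha
    exact ⟨_, ⟨η, h1, rfl⟩, by rintro _ ⟨g, hg, h, hh, rfl⟩; exact h2 g hg h hh⟩
  inv' := by
    rintro _ ⟨a, ha, rfl⟩
    obtain ⟨η, h1, h2⟩ := I.inv a ha
    exact ⟨_, ⟨η, h1, rfl⟩, fun g hg => h2 g hg.1 hg.2⟩
  conj' := by
    rintro γ _ ⟨a, ha, rfl⟩
    obtain ⟨η, h1, h2⟩ := I.conj γ a ha
    exact ⟨_, ⟨η, h1, rfl⟩, fun g hg => h2 g hg.1 hg.2⟩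

theorem hasBasis (I : IG G E) : (@nhds G (gfb I).topology 1).HasBasis (fun ε : ℝ => 0 < ε) (sm I) :=
  (gfb I).nhds_one_hasBasis.to_hasBasis (by rintro _ ⟨a, ha, rfl⟩; exact ⟨a, ha, subset_rfl⟩)
    fun a ha => ⟨_, ⟨a, ha, rfl⟩, subset_rfl⟩

/-- the representation with values in matrices -/
def rho {I : IG G E} (A : I.Ad) : G →* Matrix (Fin A.d) (Fin A.d) ℂ :=
  (Units.coeHom _).comp A.ρ

theorem comm_of_rho {I : IG G E} (A : I.Ad) {z a : G} (hz : rho A z = 1) (ha : a ∈ A.G₀) :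
    z * a = a * z := A.cent z (Units.ext hz) a ha

end IGM

open IGM

/-- weak overlap of the small elements makes `G₀` virtually solvable -/
theorem vs_of_ad [Group.FG G] {I : IG G E} (A : I.Ad) {c0 δ : ℝ} (hc : 0 < c0) (hδ : 0 < δ)
    (h : WO c0 {g | g ∈ I.S ∧ ‖I.v g‖ < δ}) : VS A.G₀ := by
  let _ := (gfb I).topology
  have : IsTopologicalGroup G := (gfb I).isTopologicalGroup
  have hb := hasBasis I
  have : (𝓝 (1 : G)).IsCountablyGenerated :=
    (hb.to_hasBasis (p' := fun _ : ℕ => True) (s' := fun n => sm I (1 / (n + 1)))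
      (fun ε hε => (exists_nat_one_div_lt hε).imp fun _ hn => ⟨trivial, sm_mono I hn.le⟩)
      fun n _ => ⟨_, Nat.one_div_pos_of_nat, subset_rfl⟩).isCountablyGenerated
  obtain ⟨K, h1, n, h2⟩ := vsr_of_small (rho A) (K := A.G₀) (fun U hU => by
      obtain ⟨ε, hε, h1⟩ := hb.mem_iff.1 hU
      exact (A.gen ε hε).ge.trans (Subgroup.closure_mono fun g hg => ⟨h1 ⟨hg.1, hg.2.1⟩, hg.2.2⟩))
    (tendsto_pi_nhds.2 fun i => tendsto_pi_nhds.2 fun j => Metric.tendsto_nhds.2 fun ε hε => by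
      obtain ⟨η, hη, h1⟩ := A.cont ε hε
      exact hb.eventually_iff.2 ⟨η, hη, fun g hg => (dist_eq_norm _ _).trans_lt
        (h1 g hg.1 hg.2 i j)⟩) hc (hb.mem_of_mem hδ) h
  refine ⟨K, h1, n + 1, Subgroup.commutator_le.2 fun a ha b hb => ?_⟩
  rw [Subgroup.mem_bot, commutatorElement_eq_one_iff_mul_comm]
  exact comm_of_rho A (h2 a ha) (h1.le (dser_le n K hb))

/-- the non amenable case -/
theorem false_of_ad (hG : JN G) (hA : ¬Amen G) {I : IG G E} (A : I.Ad) {c0 δ : ℝ} (hc : 0 < c0)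
    (hδ : 0 < δ) (h : WO c0 {g | g ∈ I.S ∧ ‖I.v g‖ < δ}) : False :=
  have := hG.fg
  A.ne_bot (hG.eq_bot_of_amen hA A.normal (vs_of_ad A hc hδ h).amen)

/-- the amenable case -/
theorem vind_of_ad (hG : JN G) {I : IG G E} (A : I.Ad) {K : Subgroup G} (hA : Amen K)
    (hK : K.FG) [Infinite K] : VInd K := by
  have := hG.fg
  by_contra h
  obtain ⟨K₁, h1, h2⟩ := finite_of_not_vind (rho A) hA hK h
  obtain ⟨L, h3, h4⟩ := hG.quot _ A.normal A.ne_bot
  refine h (VS.vind ⟨L ⊓ K₁, ((FI.of_finiteIndex L).inf_right le_top).trans h1, 2,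
    Subgroup.commutator_le.2 fun a ha b hb => ?_⟩ hK)
  rw [Subgroup.mem_bot, commutatorElement_eq_one_iff_mul_comm]
  refine comm_of_rho A (h2 a (dser_le 1 _ ha).2) ?_
  exact (Subgroup.commutator_le (H₁ := L ⊓ K₁) (H₂ := L ⊓ K₁)).2
    (fun x hx y hy => h4 x hx.1 y hy.1) hb

end Crest.Agent.X261.Grp
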