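import Crest.Agent.X261.Loc.Defs

/-!
# Row 261, package IG (helper85), part A: normalised infinitesimal data and local estimates
-/

set_option autoImplicit false

noncomputable section

namespace Crest.Agent.X261.Grp

open Filter Topology Set

/-- normalised infinitesimal data -/
structure NG (G : Type*) [Group G] (E : Type*) [NormedAddCommGroup E] [NormedSpace ℝ E] where
  S : Set G
  v : G → E
  one_mem : (1 : G) ∈ S
  v_one : v 1 = 0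
  inj : ∀ g ∈ S, v g = 0 → g = 1
  mul : ∀ g ∈ S, ∀ h ∈ S, ‖v g‖ ≤ 1 → ‖v h‖ ≤ 1 →
    g * h ∈ S ∧ ‖v (g * h) - v g - v h‖ ≤ 1 / 8 * (‖v g‖ * ‖v h‖)
  inv : ∀ g ∈ S, ‖v g‖ ≤ 1 → g⁻¹ ∈ S ∧ ‖v g⁻¹ + v g‖ ≤ 1 / 8 * (‖v g‖ * ‖v g‖)
  conj : ∀ γ : G, ∀ ε > 0, ∃ η > 0, ∀ g ∈ S, ‖v g‖ ≤ η →
    γ * g * γ⁻¹ ∈ S ∧ ‖v (γ * g * γ⁻¹)‖ ≤ ε
  cpt : ∃ K : Set E, IsCompact K ∧ ∀ g ∈ S, ‖v g‖ ≤ 1 → ‖v g‖⁻¹ • v g ∈ K
  nd : ∀ ε > 0, ∃ g ∈ S, g ≠ 1 ∧ ‖v g‖ ≤ ε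

variable {G : Type*} [Group G] {E : Type*} [NormedAddCommGroup E] [NormedSpace ℝ E]

/-- normalisation: pass to the completion and rescale -/
theorem exists_ng (I : Loc.IG G E) : ∃ (J : NG G (UniformSpace.Completion E)) (μ : ℝ), 0 < μ ∧
    J.S = I.S ∧ ∀ g, ‖I.v g‖ = μ * ‖J.v g‖ := by
  obtain ⟨η0, hη0, hinv⟩ := I.inv I.δ I.δ_pos
  have hC : 0 < |I.C| + 1 := by positivity
  obtain ⟨μ, hμ, h1, h2, h3⟩ : ∃ μ : ℝ, 0 < μ ∧ μ < I.δ ∧ μ < η0 ∧ (|I.C| + 1) * μ ≤ 1 / 16 := by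
    have hδ := I.δ_pos
    refine ⟨min (min (I.δ / 2) (η0 / 2)) (1 / 16 / (|I.C| + 1)), by positivity, ?_, ?_, ?_⟩
    · exact ((min_le_left _ _).trans (min_le_left _ _)).trans_lt (by linarith)
    · exact ((min_le_left _ _).trans (min_le_right _ _)).trans_lt (by linarith)
    · rw [mul_comm, ← le_div_iff₀ hC]; exact min_le_right _ _
  let ι : E →ₗᵢ[ℝ] UniformSpace.Completion E := UniformSpace.Completion.toComplₗᵢ
  let w : G → UniformSpace.Completion E := fun g => ι (μ⁻¹ • I.v g)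
  have hn : ∀ x : E, ‖x‖ = μ * ‖ι (μ⁻¹ • x)‖ := fun x => by
    rw [ι.norm_map, norm_smul, norm_inv, Real.norm_of_nonneg hμ.le, mul_inv_cancel_left₀ hμ.ne']
  have hw : ∀ g, ‖I.v g‖ = μ * ‖w g‖ := fun g => hn _
  have hs : ∀ g, ‖w g‖ ≤ 1 → ‖I.v g‖ ≤ μ := fun g hg => by
    rw [hw]; exact mul_le_of_le_one_right hμ.le hg
  have hm : ∀ g ∈ I.S, ∀ h ∈ I.S, ‖I.v g‖ < I.δ → ‖I.v h‖ < I.δ →
      ‖w (g * h) - w g - w h‖ ≤ 1 / 16 * (‖w g‖ * ‖w h‖) := fun g hg h hh h4 h5 => by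
    have h6 := (I.mul g hg h hh h4 h5).2
    rw [hn, smul_sub, smul_sub, map_sub, map_sub, hw g, hw h] at h6
    refine le_of_mul_le_mul_left (h6.trans ?_) hμ
    have h7 : I.C * μ ≤ 1 / 16 := by nlinarith [le_abs_self I.C]
    have h8 : 0 ≤ μ * (‖w g‖ * ‖w h‖) := by positivity
    nlinarith
  refine ⟨⟨I.S, w, I.one_mem, by simp [w, I.v_one], fun g hg h => I.inj g hg ?_,
    fun g hg h hh h4 h5 => ?_, fun g hg h4 => ?_, fun γ ε hε => ?_, ?_, fun ε hε => ?_⟩,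
    μ, hμ, rfl, hw⟩
  · rw [← norm_eq_zero, hw, h, norm_zero, mul_zero]
  · have h6 := (hs g h4).trans_lt h1
    have h7 := (hs h h5).trans_lt h1
    refine ⟨(I.mul g hg h hh h6 h7).1, (hm g hg h hh h6 h7).trans ?_⟩
    gcongr; norm_num
  · obtain ⟨h5, h6⟩ := hinv g hg ((hs g h4).trans_lt h2)
    have h7 := hm g hg _ h5 ((hs g h4).trans_lt h1) h6
    have h8 : w (g * g⁻¹) - w g - w g⁻¹ = -(w g⁻¹ + w g) := by
      simp only [w, mul_inv_cancel, I.v_one, smul_zero, map_zero]; abel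
    rw [h8, norm_neg] at h7
    have h9 : ‖w g⁻¹‖ ≤ ‖w g⁻¹ + w g‖ + ‖w g‖ := by simpa using norm_sub_le (w g⁻¹ + w g) (w g)
    refine ⟨h5, ?_⟩
    have h10 : ‖w g⁻¹‖ ≤ 2 * ‖w g‖ := by nlinarith [norm_nonneg (w g), norm_nonneg (w g⁻¹)]
    nlinarith [norm_nonneg (w g)]
  · obtain ⟨η, hη, h4⟩ := I.conj γ (μ * ε) (by positivity)
    refine ⟨η / μ / 2, by positivity, fun g hg h5 => ?_⟩
    obtain ⟨h6, h7⟩ := h4 g hg (by
      rw [hw]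
      calc μ * ‖w g‖ ≤ μ * (η / μ / 2) := by gcongr
        _ = η / 2 := by field_simp
        _ < η := by linarith)
    rw [hw] at h7
    exact ⟨h6, (lt_of_mul_lt_mul_left h7 hμ.le).le⟩
  · refine ⟨closure (ι '' _), (I.tb.image ι.isometry.uniformContinuous).closure.isCompact_of_isClosed
      isClosed_closure, fun g hg h4 => subset_closure ⟨_, ⟨g, ⟨hg, (hs g h4).trans_lt h1⟩, rfl⟩, ?_⟩⟩
    simp only [w]
    rw [hw, ← map_smul, smul_smul, mul_inv, mul_comm]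
  · obtain ⟨g, hg, h4, h5⟩ := I.nd (μ * ε) (by positivity)
    rw [hw] at h5
    exact ⟨g, hg, h4, (lt_of_mul_lt_mul_left h5 hμ.le).le⟩

namespace NG

variable (J : NG G E)

/-- the small elements -/
def N (ε : ℝ) : Set G := {g | g ∈ J.S ∧ ‖J.v g‖ ≤ ε}

variable {J}

theorem N_mono {a b : ℝ} (h : a ≤ b) : J.N a ⊆ J.N b := fun _ hg => ⟨hg.1, hg.2.trans h⟩

theorem one_mem_N {a : ℝ} (h : 0 ≤ a) : (1 : G) ∈ J.N a := ⟨J.one_mem, by simpa [J.v_one]⟩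

theorem mul_le {g h : G} (hg : g ∈ J.N 1) (hh : h ∈ J.N 1) :
    g * h ∈ J.S ∧ ‖J.v (g * h)‖ ≤ ‖J.v g‖ + 2 * ‖J.v h‖ := by
  obtain ⟨h1, h2⟩ := J.mul g hg.1 h hh.1 hg.2 hh.2
  refine ⟨h1, ?_⟩
  have h3 : ‖J.v (g * h)‖ ≤ ‖J.v (g * h) - J.v g - J.v h‖ + ‖J.v g‖ + ‖J.v h‖ := by
    simpa using norm_add₃_le (a := J.v (g * h) - J.v g - J.v h) (b := J.v h) (c := J.v g) |>.trans
      (le_of_eq (by ring))
  nlinarith [hg.2, norm_nonneg (J.v h)]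

theorem mul_N {g h : G} {a b : ℝ} (hg : g ∈ J.N a) (hh : h ∈ J.N b) (ha : a ≤ 1) (hb : b ≤ 1) :
    g * h ∈ J.N (a + 2 * b) :=
  have h1 := mul_le (N_mono ha hg) (N_mono hb hh)
  ⟨h1.1, h1.2.trans (by linarith [hg.2, hh.2])⟩

theorem inv_le {g : G} (hg : g ∈ J.N 1) : g⁻¹ ∈ J.S ∧ ‖J.v g⁻¹‖ ≤ 2 * ‖J.v g‖ := by
  obtain ⟨h1, h2⟩ := J.inv g hg.1 hg.2
  have h3 : ‖J.v g⁻¹‖ ≤ ‖J.v g⁻¹ + J.v g‖ + ‖J.v g‖ := by
    simpa using norm_sub_le (J.v g⁻¹ + J.v g) (J.v g)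
  exact ⟨h1, by nlinarith [hg.2, norm_nonneg (J.v g)]⟩

theorem inv_N {g : G} {a : ℝ} (hg : g ∈ J.N a) (ha : a ≤ 1) : g⁻¹ ∈ J.N (2 * a) :=
  have h1 := inv_le (N_mono ha hg)
  ⟨h1.1, h1.2.trans (by linarith [hg.2])⟩

theorem norm_le_of_pow {x y : E} {m : ℕ} (hm : m * ‖y‖ ≤ 1 / 2)
    (h : ‖x - (m : ℝ) • y‖ ≤ 1 / 8 * (m * ‖y‖) ^ 2) : ‖x‖ ≤ 2 * (m * ‖y‖) := by
  have h1 : ‖x‖ ≤ ‖x - (m : ℝ) • y‖ + m * ‖y‖ := by
    simpa [norm_smul] using norm_add_le (x - (m : ℝ) • y) ((m : ℝ) • y)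
  have h2 : 0 ≤ m * ‖y‖ := by positivity
  nlinarith

theorem pow_est {g : G} (hg : g ∈ J.S) (m : ℕ) (hm : m * ‖J.v g‖ ≤ 1 / 2) :
    g ^ m ∈ J.S ∧ ‖J.v (g ^ m) - (m : ℝ) • J.v g‖ ≤ 1 / 8 * (m * ‖J.v g‖) ^ 2 := by
  induction m with
  | zero => simp [J.one_mem, J.v_one]
  | succ m ih =>
    have h0 := norm_nonneg (J.v g)
    have h0' : 0 ≤ m * ‖J.v g‖ := by positivity
    push_cast at hm ⊢
    obtain ⟨h1, h2⟩ := ih (by nlinarith)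
    have h3 := norm_le_of_pow (by nlinarith) h2
    obtain ⟨h4, h5⟩ := J.mul _ h1 g hg (by nlinarith) (by nlinarith)
    refine ⟨by rwa [pow_succ], ?_⟩
    have h6 : J.v (g ^ (m + 1)) - ((m : ℝ) + 1) • J.v g =
        (J.v (g ^ m * g) - J.v (g ^ m) - J.v g) + (J.v (g ^ m) - (m : ℝ) • J.v g) := by
      rw [pow_succ, add_smul, one_smul]; abel
    rw [h6]
    refine (norm_add_le _ _).trans ?_
    nlinarith [mul_le_mul_of_nonneg_right h3 h0, sq_nonneg ‖J.v g‖]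

theorem pow_N {g : G} (hg : g ∈ J.S) {m : ℕ} {a : ℝ} (hm : m * ‖J.v g‖ ≤ a) (ha : a ≤ 1 / 2) :
    g ^ m ∈ J.N (2 * a) :=
  have h1 := pow_est hg m (hm.trans ha)
  ⟨h1.1, (norm_le_of_pow (hm.trans ha) h1.2).trans (by linarith)⟩

theorem dist_le {a b : G} (ha : a ∈ J.N (1 / 4)) (hb : b ∈ J.N (1 / 4)) :
    a * b⁻¹ ∈ J.S ∧ ‖J.v (a * b⁻¹)‖ ≤ 2 * ‖J.v a - J.v b‖ := by
  have h1 := inv_N hb (by norm_num)
  obtain ⟨h2, h3⟩ := J.mul a ha.1 _ h1.1 (by linarith [ha.2]) (by linarith [h1.2])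
  have h4 : ‖J.v (a * b⁻¹)‖ ≤ 1 := by
    have h4 : ‖J.v (a * b⁻¹)‖ ≤ ‖J.v (a * b⁻¹) - J.v a - J.v b⁻¹‖ + ‖J.v b⁻¹‖ + ‖J.v a‖ := by
      simpa using norm_add₃_le (a := J.v (a * b⁻¹) - J.v a - J.v b⁻¹) (b := J.v b⁻¹) (c := J.v a)
    nlinarith [ha.2, h1.2, norm_nonneg (J.v a), norm_nonneg (J.v b⁻¹)]
  have h5 := (J.mul _ h2 b hb.1 h4 (by linarith [hb.2])).2
  rw [inv_mul_cancel_right] at h5
  have h6 : ‖J.v (a * b⁻¹)‖ ≤ ‖J.v a - J.v b‖ + ‖J.v a - J.v (a * b⁻¹) - J.v b‖ := by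
    refine le_trans (le_of_eq ?_) (norm_sub_le _ _)
    congr 1; abel
  exact ⟨h2, by nlinarith [hb.2, norm_nonneg (J.v (a * b⁻¹))]⟩

theorem conj_small {x s : G} (hx : x ∈ J.N (1 / 16)) (hs : s ∈ J.N (1 / 16)) :
    x * s * x⁻¹ ∈ J.S ∧ ‖J.v (x * s * x⁻¹) - J.v s‖ ≤ ‖J.v x‖ * ‖J.v s‖ := by
  have h1 := (J.mul x hx.1 s hs.1 (by linarith [hx.2]) (by linarith [hs.2])).2
  have h2 := (J.mul s hs.1 x hx.1 (by linarith [hs.2]) (by linarith [hx.2])).2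
  obtain ⟨h3, h4⟩ := dist_le (N_mono (by norm_num) (mul_N hx hs (by norm_num) (by norm_num)))
    (N_mono (by norm_num) (mul_N hs hx (by norm_num) (by norm_num)))
  have h5 : ‖J.v (x * s) - J.v (s * x)‖ ≤
      ‖J.v (x * s) - J.v x - J.v s‖ + ‖J.v (s * x) - J.v s - J.v x‖ := by
    refine le_trans (le_of_eq ?_) (norm_sub_le _ _)
    congr 1; abel
  have h6 := mul_nonneg (norm_nonneg (J.v x)) (norm_nonneg (J.v s))
  have h7 : ‖J.v x‖ * ‖J.v s‖ ≤ 1 := by nlinarith [hx.2, hs.2, norm_nonneg (J.v x)]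
  set w := x * s * (s * x)⁻¹ with hw
  have h8 : ‖J.v w‖ ≤ 1 / 2 * (‖J.v x‖ * ‖J.v s‖) := by linarith
  obtain ⟨h9, h10⟩ := J.mul w h3 s hs.1 (by linarith) (by linarith [hs.2])
  have h11 : w * s = x * s * x⁻¹ := by rw [hw]; group
  rw [h11] at h9 h10
  have h12 : ‖J.v (x * s * x⁻¹) - J.v s‖ ≤ ‖J.v (x * s * x⁻¹) - J.v w - J.v s‖ + ‖J.v w‖ := by
    refine le_trans (le_of_eq ?_) (norm_add_le _ _)
    congr 1; abel
  exact ⟨h9, by nlinarith [hs.2, norm_nonneg (J.v w)]⟩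

theorem conj_N {x s : G} {a : ℝ} (hx : x ∈ J.N (1 / 16)) (hs : s ∈ J.N a) (ha : a ≤ 1 / 16) :
    x * s * x⁻¹ ∈ J.N (2 * a) := by
  obtain ⟨h1, h2⟩ := conj_small hx (N_mono ha hs)
  have h3 : ‖J.v (x * s * x⁻¹)‖ ≤ ‖J.v (x * s * x⁻¹) - J.v s‖ + ‖J.v s‖ := by
    simpa using norm_add_le (J.v (x * s * x⁻¹) - J.v s) (J.v s)
  exact ⟨h1, by nlinarith [hx.2, hs.2, norm_nonneg (J.v s)]⟩

/-- no small subgroups, quantitatively -/
theorem nss {g : G} (m : ℕ) (h : ∀ j ≤ m, g ^ j ∈ J.N (1 / 16)) : m * ‖J.v g‖ ≤ 1 / 8 := by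
  induction m with
  | zero => simp
  | succ m ih =>
    have h1 := ih fun j hj => h j (by omega)
    have h2 := h 1 (by omega)
    rw [pow_one] at h2
    have h3 : ((m + 1 : ℕ) : ℝ) * ‖J.v g‖ ≤ 3 / 16 := by push_cast; linarith [h2.2]
    have h4 := (pow_est h2.1 (m + 1) (by linarith)).2
    have h5 : ((m + 1 : ℕ) : ℝ) * ‖J.v g‖ ≤
        ‖J.v (g ^ (m + 1))‖ + ‖J.v (g ^ (m + 1)) - ((m + 1 : ℕ) : ℝ) • J.v g‖ := by
      refine le_trans (le_of_eq ?_) (norm_sub_le _ _)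
      rw [sub_sub_cancel, norm_smul, Real.norm_natCast]
    have h6 : 0 ≤ ((m + 1 : ℕ) : ℝ) * ‖J.v g‖ := by positivity
    nlinarith [(h (m + 1) le_rfl).2]

theorem floor_mul {t r : ℝ} (ht : 0 ≤ t) (hr : 0 < r) :
    ⌊t / r⌋₊ * r ≤ t ∧ t - r ≤ ⌊t / r⌋₊ * r := by
  have h1 := Nat.floor_le (div_nonneg ht hr.le)
  have h2 := (Nat.lt_floor_add_one (t / r)).le
  rw [le_div_iff₀ hr] at h1
  rw [div_le_iff₀ hr] at h2
  exact ⟨h1, by linarith⟩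

variable (J) in
/-- conjugations are Lipschitz at `1` -/
theorem lip (z : G) : ∃ L : ℝ, 0 < L ∧ ∃ η > 0, ∀ g ∈ J.N η,
    z * g * z⁻¹ ∈ J.S ∧ ‖J.v (z * g * z⁻¹)‖ ≤ L * ‖J.v g‖ := by
  obtain ⟨η0, hη0, h1⟩ := J.conj z (1 / 16) (by norm_num)
  set η := min η0 1
  have h2 : 0 < η := by positivity
  have h3 : η ≤ η0 := min_le_left _ _
  have h4 : η ≤ 1 := min_le_right _ _
  refine ⟨η⁻¹, by positivity, η / 4, by positivity, fun g hg => ⟨(h1 g hg.1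
    (by linarith [hg.2])).1, ?_⟩⟩
  rcases (norm_nonneg (J.v g)).eq_or_lt with h5 | h5
  · rw [J.inj g hg.1 (norm_eq_zero.1 h5.symm)]; simp [J.v_one]
  obtain ⟨h6, h7⟩ := floor_mul (by positivity : 0 ≤ η / 2) h5
  set m := ⌊η / 2 / ‖J.v g‖⌋₊
  have h8 := nss (J := J) (g := z * g * z⁻¹) m fun j hj => by
    have h8 := pow_N hg.1 (m := j) (a := η / 2) (le_trans (by gcongr) h6) (by linarith)
    rw [conj_pow]
    exact h1 _ h8.1 (by linarith [h8.2])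
  rw [le_inv_mul_iff₀ h2]
  have h9 := mul_le_mul_of_nonneg_left h8 h5.le
  have h10 := norm_nonneg (J.v (z * g * z⁻¹))
  have h11 : η / 4 ≤ m * ‖J.v g‖ := by linarith [hg.2]
  nlinarith [mul_le_mul_of_nonneg_right h11 h10]

/-- powers of a tiny element approximate its direction -/
theorem approx {b : G} (hb : b ∈ J.S) (hb0 : 0 < ‖J.v b‖) {t : ℝ} (ht : 0 ≤ t) (ht1 : t ≤ 1 / 2) :
    ‖J.v (b ^ ⌊t / ‖J.v b‖⌋₊) - t • ‖J.v b‖⁻¹ • J.v b‖ ≤ 1 / 8 * t ^ 2 + ‖J.v b‖ := by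
  obtain ⟨h1, h2⟩ := floor_mul ht hb0
  set m := ⌊t / ‖J.v b‖⌋₊
  have h3 := (pow_est hb m (h1.trans ht1)).2
  have h4 : ‖(m : ℝ) • J.v b - t • ‖J.v b‖⁻¹ • J.v b‖ ≤ ‖J.v b‖ := by
    rw [smul_smul, ← sub_smul, norm_smul, Real.norm_eq_abs, ← abs_of_pos hb0, ← abs_mul,
      abs_of_pos hb0, sub_mul, mul_assoc, inv_mul_cancel₀ hb0.ne', mul_one, abs_le]
    constructor <;> linarith
  have h5 : (m * ‖J.v b‖) ^ 2 ≤ t ^ 2 := by gcongr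
  linarith [norm_sub_le_norm_sub_add_norm_sub (J.v (b ^ m)) ((m : ℝ) • J.v b)
    (t • ‖J.v b‖⁻¹ • J.v b)]

theorem tendsto_rinv : Tendsto (fun k : ℕ => ((k : ℝ) + 1)⁻¹) atTop (𝓝 0) := by
  simpa using tendsto_one_div_add_atTop_nhds_zero_nat (𝕜 := ℝ)

variable (J) in
/-- recurrent directions -/
theorem recur : ∃ e > 0, ∀ a ∈ J.N e, 0 < ‖J.v a‖ → ∀ η > 0, ∃ b ∈ J.N η, 0 < ‖J.v b‖ ∧
    ‖‖J.v b‖⁻¹ • J.v b - ‖J.v a‖⁻¹ • J.v a‖ ≤ 1 / 8 := by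
  by_contra h
  push Not at h
  choose a ha ha0 η hη h using fun k : ℕ => h ((k : ℝ) + 1)⁻¹ (by positivity)
  obtain ⟨K, hK, h1⟩ := J.cpt
  obtain ⟨u, -, φ, hφ, h2⟩ := hK.tendsto_subseq (x := fun k => ‖J.v (a k)‖⁻¹ • J.v (a k))
    fun k => h1 _ (ha k).1 ((ha k).2.trans (inv_le_one_of_one_le₀ (by simp)))
  have h3 := h2.eventually (Metric.closedBall_mem_nhds u (by norm_num : (0 : ℝ) < 1 / 16))
  obtain ⟨k, hk⟩ := h3.exists
  obtain ⟨l, hl1, hl2⟩ := (h3.and ((tendsto_rinv.comp hφ.tendsto_atTop).eventually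
    (ge_mem_nhds (hη (φ k))))).exists
  refine absurd (h (φ k) (a (φ l)) (N_mono hl2 (ha _)) (ha0 _)) (not_lt.2 ?_)
  rw [← dist_eq_norm]
  exact (dist_triangle_right _ _ u).trans (by
    simp only [Function.comp] at hk hl1; linarith)

variable (J) in
/-- halving: a small element is a power of a tiny element up to half its size -/
theorem halve : ∃ e > 0, e ≤ 1 / 32 ∧ ∀ a ∈ J.N e, ∀ η > 0, ∃ b ∈ J.N η, ∃ m : ℕ,
    m * ‖J.v b‖ ≤ ‖J.v a‖ ∧ a * (b ^ m)⁻¹ ∈ J.N (‖J.v a‖ / 2) := by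
  obtain ⟨e, he, h⟩ := J.recur
  refine ⟨min e (1 / 32), by positivity, min_le_right _ _, fun a ha η hη => ?_⟩
  have h1 : ‖J.v a‖ ≤ 1 / 32 := ha.2.trans (min_le_right _ _)
  rcases (norm_nonneg (J.v a)).eq_or_lt with h2 | h2
  · refine ⟨1, one_mem_N hη.le, 0, by simp, ?_⟩
    rw [J.inj a ha.1 (norm_eq_zero.1 h2.symm)]
    simpa using one_mem_N (by positivity)
  obtain ⟨b, hb, hb0, h3⟩ := h a (N_mono (min_le_left _ _) ha) h2 (min η (‖J.v a‖ / 32))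
    (by positivity)
  have h4 : ‖J.v b‖ ≤ ‖J.v a‖ / 32 := hb.2.trans (min_le_right _ _)
  have h5 := approx hb.1 hb0 h2.le (by linarith)
  have h6 := (floor_mul h2.le hb0).1
  refine ⟨b, N_mono (min_le_left _ _) hb, _, h6, ?_⟩
  obtain ⟨h7, h8⟩ := dist_le (a := a) ⟨ha.1, by linarith⟩
    (N_mono (by linarith) (pow_N hb.1 h6 (by linarith)))
  have h9 : ‖‖J.v a‖ • ‖J.v b‖⁻¹ • J.v b - J.v a‖ ≤ ‖J.v a‖ * (1 / 8) := by
    have h9 : ‖J.v a‖ • ‖J.v b‖⁻¹ • J.v b - J.v a =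
        ‖J.v a‖ • (‖J.v b‖⁻¹ • J.v b - ‖J.v a‖⁻¹ • J.v a) := by
      rw [smul_sub, smul_inv_smul₀ h2.ne']
    rw [h9, norm_smul, norm_norm]
    gcongr
  rw [norm_sub_rev] at h8
  refine ⟨h7, h8.trans ?_⟩
  nlinarith [norm_sub_le_norm_sub_add_norm_sub (J.v (b ^ ⌊‖J.v a‖ / ‖J.v b‖⌋₊))
    (‖J.v a‖ • ‖J.v b‖⁻¹ • J.v b) (J.v a)]

section halve

variable {e : ℝ} (he : e ≤ 1 / 32) (h : ∀ a ∈ J.N e, ∀ η > 0, ∃ b ∈ J.N η, ∃ m : ℕ,
    m * ‖J.v b‖ ≤ ‖J.v a‖ ∧ a * (b ^ m)⁻¹ ∈ J.N (‖J.v a‖ / 2))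

include h in
theorem gen {η : ℝ} (hη : 0 < η) : Subgroup.closure (J.N e) ≤ Subgroup.closure (J.N η) := by
  have h1 : ∀ k : ℕ, ∀ a ∈ J.N e, ‖J.v a‖ ≤ 2 ^ k * η → a ∈ Subgroup.closure (J.N η) := by
    intro k
    induction k with
    | zero => exact fun a ha h1 => Subgroup.subset_closure ⟨ha.1, by simpa using h1⟩
    | succ k ih =>
      intro a ha h1
      obtain ⟨b, hb, m, -, h2⟩ := h a ha η hη
      have h3 := ih _ (N_mono (by linarith [ha.2, norm_nonneg (J.v a)]) h2)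
        (h2.2.trans (by rw [pow_succ] at h1; linarith))
      simpa using Subgroup.mul_mem _ h3 (Subgroup.pow_mem _ (Subgroup.subset_closure hb) m)
  refine (Subgroup.closure_le _).2 fun a ha => ?_
  obtain ⟨k, hk⟩ := pow_unbounded_of_one_lt (‖J.v a‖ / η) (one_lt_two (α := ℝ))
  exact h1 k a ha ((div_le_iff₀ hη).1 hk.le)

include he h in
/-- an element that is infinitesimally central centralises the small elements -/
theorem cent {z : G} (he0 : 0 < e) (hz : ∀ κ > 0, ∃ η > 0, ∀ b ∈ J.N η,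
    z * b * z⁻¹ * b⁻¹ ∈ J.N (κ * ‖J.v b‖)) : ∀ a ∈ Subgroup.closure (J.N e), z * a = a * z := by
  obtain ⟨η1, hη1, h1⟩ := hz 1 one_pos
  have h2 : ∀ k : ℕ, ∀ a ∈ J.N (min e η1), ‖J.v (z * a * z⁻¹ * a⁻¹)‖ ≤ (3 / 4) ^ k * ‖J.v a‖ := by
    intro k
    induction k with
    | zero => exact fun a ha => by simpa using (h1 a (N_mono (min_le_right _ _) ha)).2
    | succ k ih =>
      intro a ha
      have hk : (3 / 4 : ℝ) ^ k ≤ 1 := pow_le_one₀ (by norm_num) (by norm_num)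
      have hk0 : 0 < (3 / 4 : ℝ) ^ k := by positivity
      set κ := (3 / 4 : ℝ) ^ k / 64 with hκ
      have hκ0 : 0 < κ := by positivity
      have hκ1 : κ ≤ 1 / 64 := by linarith
      have ha1 : ‖J.v a‖ ≤ 1 / 32 := ha.2.trans ((min_le_left _ _).trans he)
      have ha0 := norm_nonneg (J.v a)
      obtain ⟨η, hη, h3⟩ := hz κ hκ0
      obtain ⟨b, hb, m, hm, h4⟩ := h a (N_mono (min_le_left _ _) ha) (min η 1) (by positivity)
      have hb0 := norm_nonneg (J.v b)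
      have hb1 : ‖J.v b‖ ≤ 1 := hb.2.trans (min_le_right _ _)
      have h5 := h3 b (N_mono (min_le_left _ _) hb)
      have h6 : ∀ j ≤ m, z * b ^ j * z⁻¹ * (b ^ j)⁻¹ ∈ J.N (4 * κ * (j * ‖J.v b‖)) := by
        intro j hj
        induction j with
        | zero => simpa using one_mem_N le_rfl
        | succ j ihj =>
          have h6 : (j : ℝ) * ‖J.v b‖ ≤ 1 / 32 := le_trans (by gcongr; omega) (hm.trans ha1)
          have h7 := mul_N (ihj (by omega)) (conj_N (N_mono (by norm_num)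
            (pow_N hb.1 h6 (by norm_num))) h5 (by nlinarith)) (by nlinarith) (by nlinarith)
          have h8 : z * b ^ (j + 1) * z⁻¹ * (b ^ (j + 1))⁻¹ = z * b ^ j * z⁻¹ * (b ^ j)⁻¹ *
              (b ^ j * (z * b * z⁻¹ * b⁻¹) * (b ^ j)⁻¹) := by
            rw [pow_succ]; generalize b ^ j = B; group
          rw [h8]
          exact N_mono (le_of_eq (by push_cast; ring)) h7
      have h7 := N_mono (show _ ≤ 4 * κ * ‖J.v a‖ by gcongr) (h6 m le_rfl)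
      set a' := a * (b ^ m)⁻¹ with ha'
      have h8 : a' ∈ J.N (min e η1) := N_mono (by linarith [ha.2]) h4
      have h9 : z * a' * z⁻¹ * a'⁻¹ ∈ J.N ((3 / 4) ^ k * (‖J.v a‖ / 2)) :=
        ⟨(h1 a' (N_mono (min_le_right _ _) h8)).1, (ih a' h8).trans (by gcongr; exact h4.2)⟩
      have h10 := mul_N h9 (conj_N (N_mono (by linarith) h4) h7 (by nlinarith)) (by nlinarith)
        (by nlinarith)
      have h11 : z * a' * z⁻¹ * a'⁻¹ * (a' * (z * b ^ m * z⁻¹ * (b ^ m)⁻¹) * a'⁻¹) =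
          z * a * z⁻¹ * a⁻¹ := by rw [ha']; group
      rw [h11] at h10
      refine h10.2.trans (le_of_eq ?_)
      rw [hκ]; ring
  intro a ha
  have h3 : Subgroup.closure (J.N (min e η1)) ≤ Subgroup.centralizer {z} := by
    refine (Subgroup.closure_le _).2 fun a ha => ?_
    have h3 : ‖J.v (z * a * z⁻¹ * a⁻¹)‖ ≤ 0 := by
      refine ge_of_tendsto' (x := atTop) ?_ fun k => h2 k a ha
      simpa using (tendsto_pow_atTop_nhds_zero_of_lt_one (r := (3 / 4 : ℝ)) (by norm_num)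
        (by norm_num)).mul_const ‖J.v a‖
    have h4 := J.inj _ (h1 a (N_mono (min_le_right _ _) ha)).1 (norm_le_zero_iff.1 h3)
    rw [SetLike.mem_coe, Subgroup.mem_centralizer_singleton_iff]
    rw [mul_inv_eq_one, mul_inv_eq_iff_eq_mul] at h4
    exact h4.symm
  exact (Subgroup.mem_centralizer_singleton_iff.1 (h3 (gen h (by positivity) ha))).symm

end halve

end NG

end Crest.Agent.X261.Grp
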